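import Vale.Agent.P120.Spec
import Mathlib.MeasureTheory.Measure.Lebesgue.EqHaar
import Mathlib.MeasureTheory.Integral.Bochner.Set
import Mathlib.Analysis.InnerProductSpace.Calculus
import Mathlib.Analysis.SpecificLimits.Basic

/-!
# P120, Linear: kernels and shell estimates

`ker` is the kernel of the half Laplacian, `jap` and `jap2` are its regularised versions, one and
two orders above the dimension.
-/

open MeasureTheory Metric Finset Filter
open scoped ENNReal Topology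

namespace Vale.Agent.P120.Linear

variable {n : ℕ}

/-- The kernel of the half Laplacian. -/
noncomputable def ker (z : Sp n) : ℝ := (‖z‖ ^ (n + 1))⁻¹

/-- The regularised kernel. -/
noncomputable def jap (z : Sp n) : ℝ := ((1 + ‖z‖) ^ (n + 1))⁻¹

/-- The regularised kernel, one order higher. -/
noncomputable def jap2 (z : Sp n) : ℝ := ((1 + ‖z‖) ^ (n + 2))⁻¹

lemma ker_nonneg (z : Sp n) : 0 ≤ ker z := by unfold ker; positivity

lemma ker_comm (y z : Sp n) : ker (y - z) = ker (z - y) := by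
  simp only [ker, norm_sub_rev]

lemma ker_zero : ker (0 : Sp n) = 0 := by simp [ker]

lemma measurable_ker : Measurable (ker : Sp n → ℝ) := by unfold ker; fun_prop

lemma jap_nonneg (z : Sp n) : 0 ≤ jap z := by unfold jap; positivity

lemma jap2_nonneg (z : Sp n) : 0 ≤ jap2 z := by unfold jap2; positivity

lemma measurable_jap : Measurable (jap : Sp n → ℝ) := by unfold jap; fun_prop

lemma measurable_jap2 : Measurable (jap2 : Sp n → ℝ) := by unfold jap2; fun_prop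

lemma jap2_le_jap (z : Sp n) : jap2 z ≤ jap z := by
  refine inv_anti₀ (by positivity) (pow_le_pow_right₀ ?_ (by omega))
  linarith [norm_nonneg z]

lemma jap_le_jap2 {z : Sp n} {R : ℝ} (hz : ‖z‖ ≤ R) : jap z ≤ (1 + R) * jap2 z := by
  have h : 0 < 1 + ‖z‖ := by positivity
  calc jap z = (1 + ‖z‖) * jap2 z := by unfold jap jap2; field_simp; ring
    _ ≤ _ := mul_le_mul_of_nonneg_right (by linarith) (jap2_nonneg z)

lemma jap_le_one (z : Sp n) : jap z ≤ 1 :=
  inv_le_one_of_one_le₀ (one_le_pow₀ (by linarith [norm_nonneg z]))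

/-- Two inverse powers with comparable bases. -/
lemma inv_pow_sub_le {a b : ℝ} (ha : 0 < a) (hb : 0 < b) (hba : b ≤ 4 * a) (hab : a ≤ 4 * b)
    (m : ℕ) : |(a ^ m)⁻¹ - (b ^ m)⁻¹| ≤ m * 16 ^ m * |a - b| / b ^ (m + 1) := by
  rcases m with _ | m
  · simp
  have h : |(a ^ (m + 1))⁻¹ - (b ^ (m + 1))⁻¹|
      = |b ^ (m + 1) - a ^ (m + 1)| / (a ^ (m + 1) * b ^ (m + 1)) := by
    rw [inv_sub_inv (pow_pos ha _).ne' (pow_pos hb _).ne', abs_div,
      abs_of_pos (mul_pos (pow_pos ha _) (pow_pos hb _))]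
  have h1 : |b ^ (m + 1) - a ^ (m + 1)| ≤ |a - b| * (m + 1 : ℕ) * (4 * b) ^ m := by
    refine (abs_pow_sub_pow_le b a (m + 1)).trans ?_
    rw [abs_sub_comm b a, Nat.add_sub_cancel, abs_of_pos ha, abs_of_pos hb]
    gcongr
    exact max_le (by linarith) hab
  have h2 : b ^ (m + 1) * b ^ (m + 1) / 4 ^ (m + 1) ≤ a ^ (m + 1) * b ^ (m + 1) := by
    rw [div_le_iff₀ (by positivity), mul_right_comm, ← mul_pow a, mul_comm a]
    gcongr
  rw [h]
  have h3 : |b ^ (m + 1) - a ^ (m + 1)| ≤ |a - b| * (m + 1 : ℕ) * (4 ^ (m + 1) * b ^ m) := by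
    refine h1.trans (mul_le_mul_of_nonneg_left ?_ (by positivity))
    rw [mul_pow, pow_succ (4 : ℝ) m]
    exact mul_le_mul_of_nonneg_right (le_mul_of_one_le_right (by positivity) (by norm_num))
      (by positivity)
  refine (div_le_div₀ (by positivity) h3 (by positivity) h2).trans_eq ?_
  have : (16 : ℝ) ^ (m + 1) = 4 ^ (m + 1) * 4 ^ (m + 1) := by rw [← mul_pow]; norm_num
  rw [this]
  field_simp
  ring

lemma ker_far {R : ℝ} {y z : Sp n} (hy : ‖y‖ ≤ R) (hz : 2 * R ≤ ‖z‖) (hR : 0 < R) :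
    ker (y - z) ≤ 2 ^ (n + 1) / ‖z‖ ^ (n + 1) := by
  have h : ‖z‖ / 2 ≤ ‖y - z‖ := by
    have := norm_sub_norm_le z y
    rw [norm_sub_rev] at this
    linarith
  calc ker (y - z) ≤ ((‖z‖ / 2) ^ (n + 1))⁻¹ := by
        unfold ker
        gcongr
        exact pow_pos (by linarith) _
    _ = _ := by rw [div_pow, inv_div]

lemma jap_sub_ker {R : ℝ} {y z : Sp n} (hy : ‖y‖ ≤ R) (hz : 2 * R ≤ ‖z‖) (hR : 1 ≤ R) :
    |jap z - ker (y - z)| ≤ 2 * (n + 1 : ℕ) * 16 ^ (n + 1) * R / ‖z‖ ^ (n + 2) := by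
  have h1 := norm_sub_norm_le z y
  have h2 := norm_sub_le y z
  rw [norm_sub_rev] at h1
  have hz0 : 0 < ‖z‖ := by linarith
  have ha : 0 < ‖y - z‖ := by linarith
  rw [abs_sub_comm, jap, ker]
  refine (inv_pow_sub_le ha (by positivity) (by linarith) (by linarith) (n + 1)).trans ?_
  have h3 : |‖y - z‖ - (1 + ‖z‖)| ≤ 2 * R := by rw [abs_le]; constructor <;> linarith
  calc ((n + 1 : ℕ) : ℝ) * 16 ^ (n + 1) * |‖y - z‖ - (1 + ‖z‖)| / (1 + ‖z‖) ^ (n + 1 + 1)
      ≤ ((n + 1 : ℕ) : ℝ) * 16 ^ (n + 1) * (2 * R) / ‖z‖ ^ (n + 2) := by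
        gcongr
        linarith
    _ = _ := by ring

lemma jap_shift {s z : Sp n} (hs : ‖s‖ ≤ 1) :
    |jap (z + s) - jap z| ≤ (n + 1 : ℕ) * 16 ^ (n + 1) * jap2 z := by
  have h1 := norm_add_le z s
  have h2 : ‖z‖ ≤ ‖z + s‖ + 1 := by
    have := norm_sub_le (z + s) s
    rw [add_sub_cancel_right] at this
    linarith
  have := norm_nonneg z
  have := norm_nonneg (z + s)
  rw [jap, jap]
  refine (inv_pow_sub_le (by positivity) (by positivity) (by linarith) (by linarith) (n + 1)).trans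
    ?_
  rw [jap2, ← div_eq_mul_inv]
  refine div_le_div_of_nonneg_right (mul_le_of_le_one_right (by positivity) ?_) (by positivity)
  rw [abs_le]; constructor <;> linarith

/-- The volume of the unit ball. -/
noncomputable def unitVol (n : ℕ) : ℝ := volume.real (ball (0 : Sp n) 1)

lemma unitVol_pos : 0 < unitVol n :=
  ENNReal.toReal_pos (measure_ball_pos volume 0 one_pos).ne' measure_ball_lt_top.ne

lemma vol_ball (x : Sp n) {X : ℝ} (hX : 0 < X) : volume.real (ball x X) = X ^ n * unitVol n := by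
  rw [measureReal_def, Measure.addHaar_ball_of_pos volume x hX, ENNReal.toReal_mul,
    ENNReal.toReal_ofReal (pow_nonneg hX.le _), finrank_euclideanSpace_fin]
  rfl

/-- Integrability and a bound from a cover by countably many pieces. -/
lemma cover_bound {α : Type*} [MeasurableSpace α] {m : Measure α} {g : α → ℝ} {S : ℕ → Set α}
    {T : Set α} {b : ℕ → ℝ} (hg : AEStronglyMeasurable g m) (hpos : ∀ x, 0 ≤ g x)
    (hT : T ≤ᵐ[m] ⋃ k, S k) (hb : Summable b)
    (h : ∀ k, IntegrableOn g (S k) m ∧ ∫ x in S k, g x ∂m ≤ b k) :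
    IntegrableOn g T m ∧ ∫ x in T, g x ∂m ≤ ∑' k, b k := by
  have hb0 : ∀ k, 0 ≤ b k := fun k => (integral_nonneg hpos).trans (h k).2
  have h1 : ∫⁻ x in T, ENNReal.ofReal (g x) ∂m ≤ ENNReal.ofReal (∑' k, b k) :=
    calc ∫⁻ x in T, ENNReal.ofReal (g x) ∂m ≤ ∫⁻ x in ⋃ k, S k, ENNReal.ofReal (g x) ∂m :=
          lintegral_mono' (Measure.restrict_mono_ae hT) le_rfl
      _ ≤ ∑' k, ∫⁻ x in S k, ENNReal.ofReal (g x) ∂m := lintegral_iUnion_le _ _
      _ ≤ ∑' k, ENNReal.ofReal (b k) := ENNReal.tsum_le_tsum fun k => by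
          rw [← ofReal_integral_eq_lintegral_ofReal (h k).1 (Eventually.of_forall hpos)]
          exact ENNReal.ofReal_le_ofReal (h k).2
      _ = _ := (ENNReal.ofReal_tsum_of_nonneg hb0 hb).symm
  have hi : IntegrableOn g T m := ⟨hg.restrict, by
    rw [hasFiniteIntegral_iff_ofReal (Eventually.of_forall hpos)]
    exact h1.trans_lt ENNReal.ofReal_lt_top⟩
  refine ⟨hi, ?_⟩
  rw [← ENNReal.ofReal_le_ofReal_iff (tsum_nonneg hb0),
    ofReal_integral_eq_lintegral_ofReal hi (Eventually.of_forall hpos)]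
  exact h1

/-- The tail of a function whose integrals over balls grow below the weight. -/
lemma tail_bound {m : ℕ} (hm : m < 2 * (n + 2)) :
    ∃ C, 0 ≤ C ∧ ∀ (f : Sp n → ℝ) (A R : ℝ), Measurable f → (∀ z, 0 ≤ f z) → 0 < R →
      (∀ X, R ≤ X → IntegrableOn f (ball 0 X) ∧ ∫ z in ball 0 X, f z ≤ A * √(X ^ m)) →
      IntegrableOn (fun z => f z / ‖z‖ ^ (n + 2)) (ball 0 R)ᶜ ∧
        ∫ z in (ball 0 R)ᶜ, f z / ‖z‖ ^ (n + 2) ≤ C * A * √(R ^ m) / R ^ (n + 2) := by
  set q : ℝ := √(2 ^ m) / 2 ^ (n + 2) with hq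
  have hq0 : 0 ≤ q := by positivity
  have hq1 : q < 1 := by
    rw [hq, div_lt_one (by positivity), Real.sqrt_lt' (by positivity), ← pow_mul]
    exact pow_lt_pow_right₀ (by norm_num) (by omega)
  refine ⟨√(2 ^ m) * (1 - q)⁻¹,
    mul_nonneg (Real.sqrt_nonneg _) (inv_nonneg.2 (by linarith)), ?_⟩
  intro f A R hf h0 hR hyp
  have key : ∀ k : ℕ, IntegrableOn (fun z => f z / ‖z‖ ^ (n + 2))
      (ball 0 (2 * (2 ^ k * R)) \ ball (0 : Sp n) (2 ^ k * R)) ∧
      ∫ z in ball 0 (2 * (2 ^ k * R)) \ ball (0 : Sp n) (2 ^ k * R), f z / ‖z‖ ^ (n + 2)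
        ≤ A * √(2 ^ m) * √(R ^ m) / R ^ (n + 2) * q ^ k := by
    intro k
    have hX : 0 < 2 ^ k * R := by positivity
    obtain ⟨hi, hle⟩ := hyp (2 * (2 ^ k * R)) (by
      nlinarith [one_le_pow₀ (M₀ := ℝ) (show (1 : ℝ) ≤ 2 by norm_num) (n := k)])
    have hd : ∀ z ∈ ball 0 (2 * (2 ^ k * R)) \ ball (0 : Sp n) (2 ^ k * R),
        f z / ‖z‖ ^ (n + 2) ≤ f z / (2 ^ k * R) ^ (n + 2) := by
      intro z hz
      have : 2 ^ k * R ≤ ‖z‖ := not_lt.1 fun hlt => hz.2 (mem_ball_zero_iff.2 hlt)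
      gcongr
      exact h0 z
    have hi' := (hi.mono_set (Set.sdiff_subset (t := ball (0 : Sp n) (2 ^ k * R)))).div_const
      ((2 ^ k * R) ^ (n + 2))
    have hiS : IntegrableOn (fun z => f z / ‖z‖ ^ (n + 2))
        (ball 0 (2 * (2 ^ k * R)) \ ball (0 : Sp n) (2 ^ k * R)) := by
      refine hi'.mono' (hf.div (by fun_prop)).aestronglyMeasurable ?_
      filter_upwards [ae_restrict_mem (measurableSet_ball.diff measurableSet_ball)] with z hz
      rw [Real.norm_of_nonneg (div_nonneg (h0 z) (by positivity))]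
      exact hd z hz
    refine ⟨hiS, ?_⟩
    calc _ ≤ ∫ z in ball 0 (2 * (2 ^ k * R)) \ ball (0 : Sp n) (2 ^ k * R),
          f z / (2 ^ k * R) ^ (n + 2) :=
          setIntegral_mono_on hiS hi' (measurableSet_ball.diff measurableSet_ball) hd
      _ = (∫ z in ball 0 (2 * (2 ^ k * R)) \ ball (0 : Sp n) (2 ^ k * R), f z) /
          (2 ^ k * R) ^ (n + 2) := integral_div _ _
      _ ≤ A * √((2 * (2 ^ k * R)) ^ m) / (2 ^ k * R) ^ (n + 2) := by
          gcongr
          exact (setIntegral_mono_set hi (Eventually.of_forall h0)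
            Set.sdiff_subset.eventuallyLE).trans hle
      _ = _ := by
          have e : √((2 * (2 ^ k * R)) ^ m) = √(2 ^ m) * √(2 ^ m) ^ k * √(R ^ m) := by
            rw [mul_pow, mul_pow, Real.sqrt_mul (by positivity), Real.sqrt_mul (by positivity),
              ← pow_mul, mul_comm k m, pow_mul,
              Real.sqrt_eq_iff_eq_sq (x := ((2 : ℝ) ^ m) ^ k) (y := √(2 ^ m) ^ k)
                (by positivity) (by positivity) |>.2 (by
                  rw [← pow_mul (√(2 ^ m)) k 2, mul_comm k 2, pow_mul, Real.sq_sqrt (by positivity)])]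
            ring
          rw [e, hq, div_pow, mul_pow, ← pow_mul, ← pow_mul (2 : ℝ) (n + 2) k, mul_comm k (n + 2)]
          field_simp
  have hcov : (ball (0 : Sp n) R)ᶜ ⊆
      ⋃ k : ℕ, ball 0 (2 * (2 ^ k * R)) \ ball (0 : Sp n) (2 ^ k * R) := by
    intro z hz
    have hzR : R ≤ ‖z‖ := not_lt.1 fun hlt => hz (mem_ball_zero_iff.2 hlt)
    obtain ⟨k, hk1, hk2⟩ := exists_nat_pow_near ((one_le_div hR).2 hzR) (one_lt_two (α := ℝ))
    rw [le_div_iff₀ hR] at hk1
    rw [div_lt_iff₀ hR, pow_succ] at hk2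
    refine Set.mem_iUnion.2 ⟨k, mem_ball_zero_iff.2 (by linarith), fun hlt => ?_⟩
    rw [mem_ball_zero_iff] at hlt
    linarith
  obtain ⟨h1, h2⟩ := cover_bound (m := volume) (hf.div (by fun_prop)).aestronglyMeasurable
    (fun z => div_nonneg (h0 z) (by positivity)) hcov.eventuallyLE
    ((summable_geometric_of_lt_one hq0 hq1).mul_left _) key
  refine ⟨h1, h2.trans_eq ?_⟩
  rw [tsum_mul_left, tsum_geometric_of_lt_one hq0 hq1]
  ring

/-- The squared increment of a Lipschitz function against the kernel is locally integrable. -/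
lemma near_bound (hn : 1 ≤ n) : ∃ C, 0 ≤ C ∧ ∀ X : ℝ, 0 < X →
    IntegrableOn (fun z : Sp n => ‖z‖ ^ 2 * ker z) (ball 0 X) ∧
      ∫ z in ball (0 : Sp n) X, ‖z‖ ^ 2 * ker z ≤ C * X := by
  have : NeZero n := ⟨by omega⟩
  refine ⟨unitVol n * 4 ^ n * 4, mul_nonneg (mul_nonneg unitVol_pos.le (by positivity)) zero_le_four,
    fun X hX => ?_⟩
  have hg : Measurable fun z : Sp n => ‖z‖ ^ 2 * ker z := (by fun_prop : Measurable fun z : Sp n =>
    ‖z‖ ^ 2).mul measurable_ker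
  have h0 : ∀ z : Sp n, 0 ≤ ‖z‖ ^ 2 * ker z := fun z =>
    mul_nonneg (by positivity) (ker_nonneg z)
  have hcov : ball (0 : Sp n) X ≤ᵐ[volume]
      ⋃ k : ℕ, ball 0 (2 * (X / 2 ^ k)) \ closedBall (0 : Sp n) (X / 2 ^ k / 2) := by
    have hne : ∀ᵐ z : Sp n ∂volume, z ≠ 0 := by
      simp [ae_iff]
    filter_upwards [hne] with z hz0 hz
    have hzn : 0 < ‖z‖ := norm_pos_iff.2 hz0
    have hzX : ‖z‖ < X := mem_ball_zero_iff.1 hz
    obtain ⟨k, hk1, hk2⟩ := exists_nat_pow_near ((one_le_div hzn).2 hzX.le) (one_lt_two (α := ℝ))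
    rw [le_div_iff₀ hzn] at hk1
    rw [div_lt_iff₀ hzn, pow_succ] at hk2
    refine Set.mem_iUnion.2 ⟨k, mem_ball_zero_iff.2 ?_, fun hle => ?_⟩
    · have h1 : ‖z‖ ≤ X / 2 ^ k := by rw [le_div_iff₀ (by positivity)]; linarith
      have h2 : 0 < X / 2 ^ k := by positivity
      linarith
    · rw [mem_closedBall_zero_iff, div_div, le_div_iff₀ (by positivity)] at hle
      linarith
  have key : ∀ k : ℕ, IntegrableOn (fun z : Sp n => ‖z‖ ^ 2 * ker z)
      (ball 0 (2 * (X / 2 ^ k)) \ closedBall (0 : Sp n) (X / 2 ^ k / 2)) ∧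
      ∫ z in ball 0 (2 * (X / 2 ^ k)) \ closedBall (0 : Sp n) (X / 2 ^ k / 2),
        ‖z‖ ^ 2 * ker z ≤ unitVol n * 4 ^ n * (2 * X) * ((1 : ℝ) / 2) ^ k := by
    intro k
    have hD : 0 < X / 2 ^ k := by positivity
    set S := ball 0 (2 * (X / 2 ^ k)) \ closedBall (0 : Sp n) (X / 2 ^ k / 2)
    have hS : MeasurableSet S := measurableSet_ball.diff measurableSet_closedBall
    have hvol : volume.real S ≤ (2 * (X / 2 ^ k)) ^ n * unitVol n :=
      (measureReal_mono Set.sdiff_subset measure_ball_lt_top.ne).trans_eq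
        (vol_ball _ (by positivity))
    have hd : ∀ z ∈ S, ‖z‖ ^ 2 * ker z ≤ 2 * ((2 / (X / 2 ^ k)) ^ n * (X / 2 ^ k)) := by
      intro z hz
      have h2 : ‖z‖ < 2 * (X / 2 ^ k) := mem_ball_zero_iff.1 hz.1
      have h1 : X / 2 ^ k / 2 ≤ ‖z‖ := (not_le.1 fun h => hz.2 (mem_closedBall_zero_iff.2 h)).le
      have hz0 : 0 < ‖z‖ := lt_of_lt_of_le (by positivity) h1
      calc ‖z‖ ^ 2 * ker z = (‖z‖ ^ n)⁻¹ * ‖z‖ := by
            rw [ker, pow_succ ‖z‖ n]; field_simp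
        _ ≤ ((X / 2 ^ k / 2) ^ n)⁻¹ * (2 * (X / 2 ^ k)) := by gcongr
        _ = _ := by rw [← inv_pow, inv_div]; ring
    have hi : IntegrableOn (fun z : Sp n => ‖z‖ ^ 2 * ker z) S :=
      (integrableOn_const (C := 2 * ((2 / (X / 2 ^ k)) ^ n * (X / 2 ^ k)))
        (measure_mono Set.sdiff_subset |>.trans_lt measure_ball_lt_top).ne).mono'
        hg.aestronglyMeasurable.restrict
        (ae_restrict_of_forall_mem hS fun z hz => by
          rw [Real.norm_of_nonneg (h0 z)]; exact hd z hz)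
    refine ⟨hi, ?_⟩
    calc ∫ z in S, ‖z‖ ^ 2 * ker z ≤ ∫ _ in S, 2 * ((2 / (X / 2 ^ k)) ^ n * (X / 2 ^ k)) :=
          setIntegral_mono_on hi (integrableOn_const
            (measure_mono Set.sdiff_subset |>.trans_lt measure_ball_lt_top).ne) hS hd
      _ = volume.real S * (2 * ((2 / (X / 2 ^ k)) ^ n * (X / 2 ^ k))) := by
          rw [setIntegral_const, smul_eq_mul]
      _ ≤ (2 * (X / 2 ^ k)) ^ n * unitVol n * (2 * ((2 / (X / 2 ^ k)) ^ n * (X / 2 ^ k))) :=
          mul_le_mul_of_nonneg_right hvol (by positivity)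
      _ ≤ _ := by
          rw [show ((1 : ℝ) / 2) ^ k = (2 ^ k)⁻¹ by rw [div_pow, one_pow, one_div]]
          rw [show (2 * (X / 2 ^ k)) ^ n * unitVol n * (2 * ((2 / (X / 2 ^ k)) ^ n * (X / 2 ^ k)))
            = unitVol n * ((2 * (X / 2 ^ k)) * (2 / (X / 2 ^ k))) ^ n * (2 * (X / 2 ^ k)) by
              rw [mul_pow (2 * (X / 2 ^ k)) (2 / (X / 2 ^ k))]; ring]
          rw [show (2 * (X / 2 ^ k)) * (2 / (X / 2 ^ k)) = 4 by field_simp; norm_num]
          exact le_of_eq (by field_simp)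
  obtain ⟨h1, h2⟩ := cover_bound (m := volume) hg.aestronglyMeasurable h0 hcov
    (summable_geometric_two.mul_left _) key
  refine ⟨h1, h2.trans_eq ?_⟩
  rw [tsum_mul_left, tsum_geometric_two]
  ring

end Vale.Agent.P120.Linear
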