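import Vale.Agent.P120.Linear.Mollify

/-!
# P120, Linear: Caccioppoli inequality and the gain of one translation difference
-/

open MeasureTheory Metric Finset Filter
open scoped ENNReal Topology NNReal

namespace Vale.Agent.P120.Linear

variable {n : ℕ}

/-- A cutoff of every scale with Lipschitz constant of that scale. -/
lemma exists_cutoff (n : ℕ) : ∃ L : ℝ, 0 ≤ L ∧ ∀ R : ℝ, 0 < R → ∃ ζ : Sp n → ℝ,
    ContDiff ℝ (⊤ : ℕ∞) ζ ∧ (∀ x, 0 ≤ ζ x ∧ ζ x ≤ 1) ∧ (∀ x, ‖x‖ ≤ R → ζ x = 1) ∧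
      (∀ x, 2 * R ≤ ‖x‖ → ζ x = 0) ∧ ∀ x y, |ζ x - ζ y| ≤ L / R * ‖x - y‖ := by
  let b : ContDiffBump (0 : Sp n) := ⟨1, 2, one_pos, by norm_num⟩
  have h0 : ∀ y : Sp n, 2 ≤ ‖y‖ → b y = 0 := fun y hy => b.zero_of_le_dist (by simpa [b] using hy)
  obtain ⟨-, L, -, hL, -⟩ := test_bounds b.contDiff h0
  refine ⟨L, L.2, fun R hR => ⟨fun x => b (R⁻¹ • x), ?_, fun x => ⟨b.nonneg, b.le_one⟩,
    fun x hx => ?_, fun x hx => ?_, fun x y => ?_⟩⟩
  · exact b.contDiff.comp (contDiff_id.const_smul R⁻¹)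
  · refine b.one_of_mem_closedBall ?_
    rw [mem_closedBall_zero_iff, norm_smul, norm_inv, Real.norm_of_nonneg hR.le]
    exact (inv_mul_le_iff₀ hR).2 (by simpa [b] using hx)
  · refine h0 _ ?_
    rw [norm_smul, norm_inv, Real.norm_of_nonneg hR.le, le_inv_mul_iff₀ hR]
    linarith
  · have := hL.norm_sub_le (R⁻¹ • x) (R⁻¹ • y)
    rw [Real.norm_eq_abs, ← smul_sub, norm_smul, norm_inv, Real.norm_of_nonneg hR.le] at this
    exact this.trans_eq (by ring)

/-- The integrand of the form against a weighted square of the function itself. -/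
lemma cacc_pointwise (a b p q : ℝ) :
    (p ^ 2 + q ^ 2) / 4 * (a - b) ^ 2 - (p - q) ^ 2 * (a ^ 2 + b ^ 2) ≤
      (p ^ 2 * a - q ^ 2 * b) * (a - b) := by
  nlinarith [sq_nonneg ((p + q) * (a - b) + 2 * (p - q) * (a + b)),
    mul_nonneg (sq_nonneg (p - q)) (sq_nonneg (a - b)), sq_nonneg (a - b), sq_nonneg (a + b)]

/-- A lower bound of the form against the weighted square. -/
lemma cacc_lower {ζ w : Sp n → ℝ} {R L : ℝ} (hR : 1 ≤ R) (h01 : ∀ x, 0 ≤ ζ x ∧ ζ x ≤ 1)
    (h1 : ∀ x, ‖x‖ ≤ R → ζ x = 1) (h2 : ∀ x, 2 * R ≤ ‖x‖ → ζ x = 0)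
    (hL : ∀ x y, |ζ x - ζ y| ≤ L * ‖x - y‖) (q : Sp n × Sp n) :
    let S := ball (0 : Sp n) (4 * R) ×ˢ ball (0 : Sp n) (4 * R)
    let E : Sp n × Sp n → ℝ := S.indicator fun q =>
      w q.1 ^ 2 * (‖q.2 - q.1‖ ^ 2 * ker (q.2 - q.1))
    let cross : Sp n × Sp n → ℝ := S.indicator fun q =>
      ζ q.1 ^ 2 * w q.1 * (w q.2 * jap q.2)
    let off : Sp n × Sp n → ℝ := fun q =>
      (ball (0 : Sp n) (2 * R)).indicator (fun y => |w y|) q.1 *
        (ball (0 : Sp n) (4 * R))ᶜ.indicator (fun z => |w z| / ‖z‖ ^ (n + 2)) q.2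
    (ball (0 : Sp n) R ×ˢ ball (0 : Sp n) R).indicator (fun q => 4⁻¹ * dens w q) q -
        L ^ 2 / 2 * (E q + E q.swap) + 2⁻¹ * (cross q + cross q.swap) -
        2 * (n + 1 : ℕ) * 16 ^ (n + 1) * R * (off q + off q.swap) ≤
      form (fun x => ζ x ^ 2 * w x) w q := by
  intro S E cross off
  obtain ⟨y, z⟩ := q
  set κ : ℝ := 2 * (n + 1 : ℕ) * 16 ^ (n + 1) * R with hκ
  have hκ0 : 0 ≤ κ := by positivity
  have hoff : ∀ q, 0 ≤ off q := fun q => mul_nonneg (Set.indicator_nonneg (fun _ _ => abs_nonneg _) _)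
    (Set.indicator_nonneg (fun _ _ => div_nonneg (abs_nonneg _) (by positivity)) _)
  have hsubset : ball (0 : Sp n) R ⊆ ball 0 (4 * R) := ball_subset_ball (by linarith)
  -- off the block
  have hout : ∀ y z : Sp n, z ∉ ball (0 : Sp n) (4 * R) →
      -(κ * off (y, z)) ≤ form (fun x => ζ x ^ 2 * w x) w (y, z) := by
    intro y z hz
    have hz4 : 4 * R ≤ ‖z‖ := not_lt.1 fun h => hz (mem_ball_zero_iff.2 h)
    have hζz : ζ z = 0 := h2 z (by linarith)
    by_cases hy : ‖y‖ < 2 * R
    · have hk := jap_sub_ker hy.le (by linarith : 2 * (2 * R) ≤ ‖z‖) (by linarith)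
      have e : form (fun x => ζ x ^ 2 * w x) w (y, z) = 2⁻¹ * (ζ y ^ 2 * (w y ^ 2 * ker (y - z))) +
          2⁻¹ * (ζ y ^ 2 * (w y * w z * (jap z - ker (y - z)))) := by
        simp only [form, hζz]; ring
      have hoffe : κ * off (y, z) =
          2⁻¹ * (|w y| * |w z| * (2 * (n + 1 : ℕ) * 16 ^ (n + 1) * (2 * R) / ‖z‖ ^ (n + 2))) := by
        simp only [off, Set.indicator_of_mem (mem_ball_zero_iff.2 hy),
          Set.indicator_of_mem (show z ∈ (ball (0 : Sp n) (4 * R))ᶜ from hz), hκ]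
        ring
      have hp : ζ y ^ 2 ≤ 1 := by
        have := pow_le_pow_left₀ (h01 y).1 (h01 y).2 2
        simpa using this
      have h3 : |ζ y ^ 2 * (w y * w z * (jap z - ker (y - z)))| ≤
          |w y| * |w z| * (2 * (n + 1 : ℕ) * 16 ^ (n + 1) * (2 * R) / ‖z‖ ^ (n + 2)) := by
        rw [abs_mul, abs_mul, abs_mul, abs_of_nonneg (sq_nonneg _)]
        refine (mul_le_of_le_one_left (by positivity) hp).trans ?_
        exact mul_le_mul_of_nonneg_left hk (by positivity)
      have h4 : 0 ≤ ζ y ^ 2 * (w y ^ 2 * ker (y - z)) :=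
        mul_nonneg (sq_nonneg _) (mul_nonneg (sq_nonneg _) (ker_nonneg _))
      rw [e, hoffe]
      linarith [neg_abs_le (ζ y ^ 2 * (w y * w z * (jap z - ker (y - z))))]
    · have hζy : ζ y = 0 := h2 y (not_lt.1 hy)
      have : form (fun x => ζ x ^ 2 * w x) w (y, z) = 0 := by simp [form, hζz, hζy]
      rw [this]
      linarith [mul_nonneg hκ0 (hoff (y, z))]
  have hn1 := mul_nonneg hκ0 (hoff (y, z))
  have hn2 := mul_nonneg hκ0 (hoff (y, z).swap)
  by_cases hy : y ∈ ball (0 : Sp n) (4 * R)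
  · by_cases hz : z ∈ ball (0 : Sp n) (4 * R)
    · have hm : (y, z) ∈ S := ⟨hy, hz⟩
      have hm' : (y, z).swap ∈ S := ⟨hz, hy⟩
      simp only [E, cross, Set.indicator_of_mem hm, Set.indicator_of_mem hm', Prod.fst_swap,
        Prod.snd_swap]
      have hd : (ζ y - ζ z) ^ 2 ≤ L ^ 2 * ‖z - y‖ ^ 2 := by
        rw [← mul_pow, ← sq_abs (ζ y - ζ z), norm_sub_rev z y]
        exact pow_le_pow_left₀ (abs_nonneg _) (hL y z) 2
      have hK := ker_nonneg (y - z)
      have hp := mul_le_mul_of_nonneg_right (cacc_pointwise (w y) (w z) (ζ y) (ζ z)) hK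
      have hd' := mul_le_mul_of_nonneg_right (mul_le_mul_of_nonneg_right hd
        (add_nonneg (sq_nonneg (w y)) (sq_nonneg (w z)))) hK
      have hmain : (ball (0 : Sp n) R ×ˢ ball (0 : Sp n) R).indicator
          (fun q => 4⁻¹ * dens w q) (y, z) ≤
          2⁻¹ * ((ζ y ^ 2 + ζ z ^ 2) / 4 * (w y - w z) ^ 2 * ker (y - z)) := by
        by_cases hin : (y, z) ∈ ball (0 : Sp n) R ×ˢ ball (0 : Sp n) R
        · rw [Set.indicator_of_mem hin, h1 y (mem_ball_zero_iff.1 hin.1).le,
            h1 z (mem_ball_zero_iff.1 hin.2).le, dens]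
          simp only
          linarith
        · rw [Set.indicator_of_notMem hin]
          exact mul_nonneg (by norm_num) (mul_nonneg (mul_nonneg (by positivity) (sq_nonneg _)) hK)
      simp only [form]
      rw [ker_comm z y, norm_sub_rev y z]
      simp only [Prod.swap_prod_mk] at hn2 ⊢
      linarith
    · have hm : (y, z) ∉ S := fun h => hz h.2
      have hm' : (y, z).swap ∉ S := fun h => hz h.1
      have hin : (y, z) ∉ ball (0 : Sp n) R ×ˢ ball (0 : Sp n) R := fun h => hz (hsubset h.2)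
      simp only [E, cross, Set.indicator_of_notMem hm, Set.indicator_of_notMem hm',
        Set.indicator_of_notMem hin]
      have := hout y z hz
      linarith
  · have hm : (y, z) ∉ S := fun h => hy h.1
    have hm' : (y, z).swap ∉ S := fun h => hy h.2
    have hin : (y, z) ∉ ball (0 : Sp n) R ×ˢ ball (0 : Sp n) R := fun h => hy (hsubset h.1)
    simp only [E, cross, Set.indicator_of_notMem hm, Set.indicator_of_notMem hm',
      Set.indicator_of_notMem hin]
    have := hout z y hy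
    rw [← form_swap] at this
    simp only [Prod.swap_prod_mk] at this hn2 ⊢
    linarith

/-- The weighted mean of a function is controlled by its growth. -/
lemma cutoff_mean {a : ℕ} {u ζ : Sp n → ℝ} (hu : Continuous u) {C R : ℝ} (hC : 0 ≤ C)
    (h : ∀ X : ℝ, 1 ≤ X → IntegrableOn (fun x => u x ^ 2) (ball 0 X) ∧
      ∫ x in ball 0 X, u x ^ 2 ≤ C * X ^ a) (hR : 1 ≤ R) (hζ : Continuous ζ)
    (h01 : ∀ x, 0 ≤ ζ x ∧ ζ x ≤ 1) (h1 : ∀ x, ‖x‖ ≤ R → ζ x = 1)
    (h2 : ∀ x, 2 * R ≤ ‖x‖ → ζ x = 0) :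
    0 < ∫ x, ζ x ^ 2 ∧
      ((∫ x, ζ x ^ 2 * u x) / ∫ x, ζ x ^ 2) ^ 2 * (R ^ n * unitVol n) ≤
        2 ^ (a + n) * C * R ^ a := by
  have hc : HasCompactSupport fun x => ζ x ^ 2 :=
    HasCompactSupport.intro (isCompact_closedBall (0 : Sp n) (2 * R)) fun x hx => by
      simp [h2 x (not_le.1 (mt mem_closedBall_zero_iff.2 hx)).le]
  have hi : Integrable fun x => ζ x ^ 2 := (hζ.pow 2).integrable_of_hasCompactSupport hc
  have hlow : R ^ n * unitVol n ≤ ∫ x, ζ x ^ 2 := by
    calc R ^ n * unitVol n = ∫ _ in ball (0 : Sp n) R, (1 : ℝ) := by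
          rw [setIntegral_const, vol_ball _ (by linarith), smul_eq_mul, mul_one]
      _ = ∫ x in ball (0 : Sp n) R, ζ x ^ 2 :=
          setIntegral_congr_fun measurableSet_ball fun x hx => by
            simp [h1 x (mem_ball_zero_iff.1 hx).le]
      _ ≤ _ := setIntegral_le_integral hi (Eventually.of_forall fun x => sq_nonneg _)
  have hV : 0 < R ^ n * unitVol n := mul_pos (pow_pos (by linarith) _) unitVol_pos
  have hZ : 0 < ∫ x, ζ x ^ 2 := hV.trans_le hlow
  refine ⟨hZ, ?_⟩
  obtain ⟨hiA, hA⟩ := grow_abs hu.measurable hC h (2 * R) (by linarith)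
  have hnum : |∫ x, ζ x ^ 2 * u x| ≤ √(unitVol n * C) * √((2 * R) ^ (a + n)) := by
    refine le_trans ?_ hA
    rw [← integral_indicator measurableSet_ball]
    refine norm_integral_le_of_norm_le (f := fun x => ζ x ^ 2 * u x)
      (hiA.integrable_indicator measurableSet_ball) (Eventually.of_forall fun x => ?_)
    rw [Real.norm_eq_abs, abs_mul, abs_of_nonneg (sq_nonneg _)]
    by_cases hx : x ∈ ball (0 : Sp n) (2 * R)
    · rw [Set.indicator_of_mem hx]
      exact mul_le_of_le_one_left (abs_nonneg _) (pow_le_one₀ (h01 x).1 (h01 x).2)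
    · rw [Set.indicator_of_notMem hx, h2 x (not_lt.1 fun h => hx (mem_ball_zero_iff.2 h))]
      simp
  have hsq := pow_le_pow_left₀ (abs_nonneg _) hnum 2
  rw [sq_abs, mul_pow, Real.sq_sqrt (mul_nonneg unitVol_pos.le hC),
    Real.sq_sqrt (by positivity), mul_pow] at hsq
  have hC1 : 0 ≤ unitVol n * C * (2 ^ (a + n) * R ^ (a + n)) := (sq_nonneg _).trans hsq
  calc ((∫ x, ζ x ^ 2 * u x) / ∫ x, ζ x ^ 2) ^ 2 * (R ^ n * unitVol n)
      ≤ unitVol n * C * (2 ^ (a + n) * R ^ (a + n)) / (R ^ n * unitVol n) ^ 2 *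
          (R ^ n * unitVol n) := by
        rw [div_pow]
        exact mul_le_mul_of_nonneg_right (div_le_div₀ hC1 hsq (by positivity)
          (pow_le_pow_left₀ hV.le hlow 2)) hV.le
    _ = _ := by
        have := unitVol_pos (n := n)
        have : 0 < R := by linarith
        rw [pow_add R]
        field_simp

/-- Growth of the centred function, from the scale of the cutoff on. -/
lemma centred_grow {a : ℕ} {u : Sp n → ℝ} (hu : Continuous u) {C R c : ℝ} (hC : 0 ≤ C)
    (h : ∀ X : ℝ, 1 ≤ X → IntegrableOn (fun x => u x ^ 2) (ball 0 X) ∧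
      ∫ x in ball 0 X, u x ^ 2 ≤ C * X ^ a) (hR : 1 ≤ R)
    (hc : c ^ 2 * (R ^ n * unitVol n) ≤ 2 ^ (a + n) * C * R ^ a) (X : ℝ) (hX : R ≤ X) :
    IntegrableOn (fun x => (u x - c) ^ 2) (ball 0 X) ∧
      ∫ x in ball 0 X, (u x - c) ^ 2 ≤
        (2 * C + 2 * (2 ^ (a + n) * C)) * R ^ a / R ^ max a n * X ^ max a n := by
  obtain ⟨hi, hle⟩ := h X (by linarith)
  have hR0 : 0 < R := by linarith
  have hk : IntegrableOn (fun _ : Sp n => 2 * c ^ 2) (ball 0 X) :=
    integrableOn_const measure_ball_lt_top.ne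
  have hb : IntegrableOn (fun x => 2 * u x ^ 2 + 2 * c ^ 2) (ball 0 X) := (hi.const_mul 2).add hk
  have hpt : ∀ x, (u x - c) ^ 2 ≤ 2 * u x ^ 2 + 2 * c ^ 2 := fun x => by
    nlinarith [sq_nonneg (u x + c)]
  have hi' : IntegrableOn (fun x => (u x - c) ^ 2) (ball 0 X) :=
    hb.mono' ((hu.sub continuous_const).pow 2).aestronglyMeasurable
      (Eventually.of_forall fun x => by
        rw [Real.norm_of_nonneg (sq_nonneg _)]; exact hpt x)
  refine ⟨hi', ?_⟩
  obtain ⟨s, hs, rfl⟩ : ∃ s, 1 ≤ s ∧ X = s * R :=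
    ⟨X / R, (one_le_div hR0).2 hX, (div_mul_cancel₀ X hR0.ne').symm⟩
  calc ∫ x in ball 0 (s * R), (u x - c) ^ 2
      ≤ ∫ x in ball (0 : Sp n) (s * R), (2 * u x ^ 2 + 2 * c ^ 2) := integral_mono hi' hb hpt
    _ = 2 * (∫ x in ball 0 (s * R), u x ^ 2) + s ^ n * (2 * (c ^ 2 * (R ^ n * unitVol n))) := by
        rw [integral_add (hi.const_mul 2) hk, integral_const_mul, setIntegral_const,
          smul_eq_mul, vol_ball _ (by positivity), mul_pow]
        ring
    _ ≤ 2 * (C * (s ^ a * R ^ a)) + s ^ n * (2 * (2 ^ (a + n) * C * R ^ a)) := by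
        rw [← mul_pow]
        gcongr
    _ ≤ 2 * (C * (s ^ max a n * R ^ a)) + s ^ max a n * (2 * (2 ^ (a + n) * C * R ^ a)) :=
        add_le_add
          (mul_le_mul_of_nonneg_left (mul_le_mul_of_nonneg_left (mul_le_mul_of_nonneg_right
            (pow_le_pow_right₀ hs (le_max_left a n)) (by positivity)) hC) zero_le_two)
          (mul_le_mul_of_nonneg_right (pow_le_pow_right₀ hs (le_max_right a n)) (by positivity))
    _ = _ := by rw [mul_pow]; field_simp

/-- **Caccioppoli.** -/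
lemma cacc (hn : 1 ≤ n) {a : ℕ} (ha : a ≤ n + 3) {u : Sp n → ℝ} (hu : ContDiff ℝ (⊤ : ℕ∞) u)
    (hg : Grow a u) (hw : Weak u) : ∃ C : ℝ, 0 ≤ C ∧ ∀ R : ℝ, 1 ≤ R →
      ∫ q in ball (0 : Sp n) R ×ˢ ball 0 R, dens u q ∂volume.prod volume ≤ C * R ^ a / R := by
  obtain ⟨C, hC, h⟩ := hg
  obtain ⟨L, hL0, hcut⟩ := exists_cutoff n
  obtain ⟨Cn, hCn, hnear⟩ := near_bound hn
  set m := max a n with hm
  obtain ⟨Ct, hCt, htail⟩ := tail_bound (n := n) (m := m + n) (by omega)
  set K : ℝ := 2 * C + 2 * (2 ^ (a + n) * C)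
  have hK : 0 ≤ K := by positivity
  refine ⟨4 * (L ^ 2 * (K * 4 ^ m * (Cn * 8)) +
    4 * (n + 1 : ℕ) * 16 ^ (n + 1) * (Ct * unitVol n * K) *
      (√(2 ^ (m + n)) * √(4 ^ (m + n)) / 4 ^ (n + 2))), ?_, fun R hR => ?_⟩
  · have := unitVol_pos (n := n)
    positivity
  have hR0 : 0 < R := by linarith
  obtain ⟨ζ, hζ, h01, h1, h2, hLip⟩ := hcut R hR0
  obtain ⟨hZ, hc⟩ := cutoff_mean hu.continuous hC h hR hζ.continuous h01 h1 h2
  set c := (∫ x, ζ x ^ 2 * u x) / ∫ x, ζ x ^ 2 with hcdef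
  set w : Sp n → ℝ := fun x => u x - c with hwdef
  set D := K * R ^ a / R ^ m with hDdef
  have hD : 0 ≤ D := by positivity
  have hgw : ∀ X, R ≤ X → IntegrableOn (fun x => w x ^ 2) (ball 0 X) ∧
      ∫ x in ball 0 X, w x ^ 2 ≤ D * X ^ m :=
    centred_grow hu.continuous hC h hR hc
  have hum : Mild u := Mild.of_smooth hn hu (Grow.mono ⟨C, hC, h⟩ ha)
  have hwm : Mild w := hum.sub (mild_const c)
  have hww : Weak w := hw.sub hn hum (mild_const c) (weak_const c)
  have hwc : Continuous w := hu.continuous.sub continuous_const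
  set φ : Sp n → ℝ := fun x => ζ x ^ 2 * w x with hφdef
  have hφ : ContDiff ℝ (⊤ : ℕ∞) φ := (hζ.pow 2).mul (hu.sub contDiff_const)
  have hsupp : ∀ y, 2 * R ≤ ‖y‖ → φ y = 0 := fun y hy => by simp [φ, h2 y hy]
  have hφc : HasCompactSupport φ := (test_bounds hφ hsupp).choose_spec.choose_spec.2.2
  have hmean : ∫ y, φ y = 0 := by
    have hc2 : HasCompactSupport fun x => ζ x ^ 2 :=
      HasCompactSupport.intro (isCompact_closedBall (0 : Sp n) (2 * R)) fun x hx => by
        simp [h2 x (not_le.1 (mt mem_closedBall_zero_iff.2 hx)).le]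
    have i1 : Integrable fun x => ζ x ^ 2 * u x :=
      ((hζ.continuous.pow 2).mul hu.continuous).integrable_of_hasCompactSupport hc2.mul_right
    have i2 : Integrable fun x => ζ x ^ 2 * c :=
      ((hζ.continuous.pow 2).integrable_of_hasCompactSupport hc2).mul_const c
    simp only [φ, w, mul_sub]
    rw [integral_sub i1 i2, integral_mul_const, hcdef, mul_div_cancel₀ _ hZ.ne', sub_self]
  have h0 := hww φ hφ (2 * R) (by linarith) hsupp hmean
  have hformi := integrable_form hn hwm (by linarith : 1 ≤ 2 * R) hφ hsupp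
  -- the pieces
  have hMi : Integrable ((ball (0 : Sp n) R ×ˢ ball (0 : Sp n) R).indicator
      fun q => 4⁻¹ * dens w q) (volume.prod volume) :=
    IntegrableOn.integrable_indicator ((hwm.gag R).const_mul _)
      (measurableSet_ball.prod measurableSet_ball)
  set S := ball (0 : Sp n) (4 * R) ×ˢ ball (0 : Sp n) (4 * R) with hS
  have hSm : MeasurableSet S := measurableSet_ball.prod measurableSet_ball
  set E : Sp n × Sp n → ℝ := S.indicator fun q =>
    w q.1 ^ 2 * (‖q.2 - q.1‖ ^ 2 * ker (q.2 - q.1)) with hEdef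
  obtain ⟨hE1, hE2⟩ := conv_bound (f := fun x => w x ^ 2) (g := fun z : Sp n => ‖z‖ ^ 2 * ker z)
    (ρ := 4 * R) (fun _ => sq_nonneg _) (fun z => mul_nonneg (sq_nonneg _) (ker_nonneg z))
    (hgw _ (by linarith)).1 (hnear _ (by positivity)).1
  have hEi : Integrable E (volume.prod volume) := hE1.integrable_indicator hSm
  set cross : Sp n × Sp n → ℝ := S.indicator fun q => φ q.1 * (w q.2 * jap q.2) with hXdef
  have hwj : IntegrableOn (fun z => w z * jap z) (ball 0 (4 * R)) :=
    (hwm.local_abs _).mono' (hwm.meas.mul measurable_jap).aestronglyMeasurable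
      (Eventually.of_forall fun z => by
        rw [Real.norm_eq_abs, abs_mul, abs_of_nonneg (jap_nonneg z)]
        exact mul_le_of_le_one_right (abs_nonneg _) (jap_le_one z))
  have hφi : Integrable φ := hφ.continuous.integrable_of_hasCompactSupport hφc
  have hXi : Integrable cross (volume.prod volume) :=
    (hφi.mul_prod (hwj.integrable_indicator measurableSet_ball)).integrableOn.congr_fun
      (fun q hq => by simp [Set.indicator_of_mem hq.2]) hSm |>.integrable_indicator hSm
  have hX0 : ∫ q, cross q ∂volume.prod volume = 0 := by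
    rw [hXdef, integral_indicator hSm, hS, setIntegral_prod_mul φ (fun z => w z * jap z)]
    rw [setIntegral_eq_integral_of_forall_compl_eq_zero (fun y hy => hsupp y
      (le_trans (by linarith) (not_lt.1 fun h => hy (mem_ball_zero_iff.2 h)))), hmean, zero_mul]
  set off : Sp n × Sp n → ℝ := fun q =>
    (ball (0 : Sp n) (2 * R)).indicator (fun y => |w y|) q.1 *
      (ball (0 : Sp n) (4 * R))ᶜ.indicator (fun z => |w z| / ‖z‖ ^ (n + 2)) q.2
  have habs : ∀ X, R ≤ X → IntegrableOn (fun x => |w x|) (ball 0 X) ∧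
      ∫ x in ball 0 X, |w x| ≤ √(unitVol n * D) * √(X ^ (m + n)) := by
    intro X hX
    obtain ⟨hi, hle⟩ := hgw X hX
    obtain ⟨g1, g2⟩ := abs_bound hwm.meas measure_ball_lt_top.ne hi
    refine ⟨g1, g2.trans ?_⟩
    rw [← Real.sqrt_mul (mul_nonneg unitVol_pos.le hD), vol_ball _ (by linarith)]
    refine Real.sqrt_le_sqrt ((mul_le_mul_of_nonneg_left hle
      (mul_nonneg (pow_nonneg (by linarith) _) unitVol_pos.le)).trans_eq ?_)
    rw [pow_add]; ring
  obtain ⟨hti, htb⟩ := htail (fun z => |w z|) (√(unitVol n * D)) (4 * R)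
    (continuous_abs.measurable.comp hwm.meas) (fun z => abs_nonneg _) (by positivity)
    (fun X hX => habs X (by linarith))
  have hoi : Integrable off (volume.prod volume) :=
    ((habs _ (by linarith)).1.integrable_indicator measurableSet_ball).mul_prod
      (hti.integrable_indicator measurableSet_ball.compl)
  have hLo : ∀ q, (ball (0 : Sp n) R ×ˢ ball (0 : Sp n) R).indicator
      (fun q => 4⁻¹ * dens w q) q -
        (L / R) ^ 2 / 2 * (E q + E q.swap) + 2⁻¹ * (cross q + cross q.swap) -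
        2 * (n + 1 : ℕ) * 16 ^ (n + 1) * R * (off q + off q.swap) ≤ form φ w q :=
    fun q => cacc_lower hR h01 h1 h2 hLip q
  have hEs : Integrable (fun q => E q.swap) (volume.prod volume) := hEi.swap
  have hXs : Integrable (fun q => cross q.swap) (volume.prod volume) := hXi.swap
  have hos : Integrable (fun q => off q.swap) (volume.prod volume) := hoi.swap
  have iA : Integrable (fun q => (L / R) ^ 2 / 2 * (E q + E q.swap)) (volume.prod volume) :=
    (hEi.add hEs).const_mul _
  have iB : Integrable (fun q => 2⁻¹ * (cross q + cross q.swap)) (volume.prod volume) :=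
    (hXi.add hXs).const_mul _
  have iC : Integrable (fun q => 2 * (n + 1 : ℕ) * 16 ^ (n + 1) * R * (off q + off q.swap))
      (volume.prod volume) := (hoi.add hos).const_mul _
  have iMA : Integrable (fun q => (ball (0 : Sp n) R ×ˢ ball (0 : Sp n) R).indicator
      (fun q => 4⁻¹ * dens w q) q - (L / R) ^ 2 / 2 * (E q + E q.swap)) (volume.prod volume) :=
    hMi.sub iA
  have iMAB : Integrable (fun q => (ball (0 : Sp n) R ×ˢ ball (0 : Sp n) R).indicator
      (fun q => 4⁻¹ * dens w q) q - (L / R) ^ 2 / 2 * (E q + E q.swap) +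
        2⁻¹ * (cross q + cross q.swap)) (volume.prod volume) := iMA.add iB
  have hkey := (integral_mono (iMAB.sub iC) hformi hLo).trans_eq h0
  simp only [Pi.sub_apply] at hkey
  rw [integral_sub iMAB iC, integral_add iMA iB, integral_sub hMi iA, integral_const_mul,
    integral_const_mul, integral_const_mul, integral_add hEi hEs, integral_add hXi hXs,
    integral_add hoi hos, integral_prod_swap E, integral_prod_swap cross, integral_prod_swap off,
    hX0, integral_indicator (measurableSet_ball.prod measurableSet_ball), integral_const_mul]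
    at hkey
  have hsame : dens w = dens u := by funext q; simp [dens, w]
  rw [hsame] at hkey
  have hEb : ∫ q, E q ∂volume.prod volume ≤ D * (4 * R) ^ m * (Cn * (2 * (4 * R))) := by
    rw [hEdef, integral_indicator hSm]
    exact hE2.trans (mul_le_mul (hgw _ (by linarith)).2 (hnear _ (by positivity)).2
      (integral_nonneg fun z => mul_nonneg (sq_nonneg _) (ker_nonneg z))
      (mul_nonneg hD (by positivity)))
  have hob : ∫ q, off q ∂volume.prod volume ≤ √(unitVol n * D) * √((2 * R) ^ (m + n)) *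
      (Ct * √(unitVol n * D) * √((4 * R) ^ (m + n)) / (4 * R) ^ (n + 2)) := by
    rw [integral_prod_mul, integral_indicator measurableSet_ball,
      integral_indicator measurableSet_ball.compl]
    exact mul_le_mul (habs _ (by linarith)).2 htb
      (integral_nonneg fun z => div_nonneg (abs_nonneg _) (by positivity)) (by positivity)
  have hEt : (L / R) ^ 2 * (D * (4 * R) ^ m * (Cn * (2 * (4 * R)))) =
      L ^ 2 * (K * 4 ^ m * (Cn * 8)) * R ^ a / R := by
    rw [hDdef, mul_pow]; field_simp; ring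
  have hot : 4 * (n + 1 : ℕ) * 16 ^ (n + 1) * R * (√(unitVol n * D) * √((2 * R) ^ (m + n)) *
      (Ct * √(unitVol n * D) * √((4 * R) ^ (m + n)) / (4 * R) ^ (n + 2))) =
      4 * (n + 1 : ℕ) * 16 ^ (n + 1) * (Ct * unitVol n * K) *
        (√(2 ^ (m + n)) * √(4 ^ (m + n)) / 4 ^ (n + 2)) * R ^ a / R := by
    have hs : √(unitVol n * D) * √(unitVol n * D) = unitVol n * D :=
      Real.mul_self_sqrt (mul_nonneg unitVol_pos.le hD)
    have hr : √(R ^ (m + n)) * √(R ^ (m + n)) = R ^ (m + n) :=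
      Real.mul_self_sqrt (by positivity)
    rw [mul_pow, mul_pow, mul_pow, Real.sqrt_mul (x := (2 : ℝ) ^ (m + n)) (by positivity),
      Real.sqrt_mul (x := (4 : ℝ) ^ (m + n)) (by positivity)]
    calc _ = 4 * (n + 1 : ℕ) * 16 ^ (n + 1) * Ct * (√(2 ^ (m + n)) * √(4 ^ (m + n)) / 4 ^ (n + 2)) *
          (√(unitVol n * D) * √(unitVol n * D)) * (√(R ^ (m + n)) * √(R ^ (m + n))) * R /
            R ^ (n + 2) := by ring
      _ = _ := by rw [hs, hr, hDdef]; field_simp; ring
  have hE' := mul_le_mul_of_nonneg_left hEb (sq_nonneg (L / R))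
  have ho' := mul_le_mul_of_nonneg_left hob
    (show (0 : ℝ) ≤ 4 * (n + 1 : ℕ) * 16 ^ (n + 1) * R by positivity)
  rw [hEt] at hE'
  rw [hot] at ho'
  rw [mul_assoc 4, mul_div_assoc 4, add_mul, add_div]
  linarith

/-- An increment is controlled by the energy. -/
lemma diff_energy {u : Sp n → ℝ} (hu : Mild u) {h : Sp n} (hh : h ≠ 0) (R : ℝ) :
    IntegrableOn (fun x => (u x - u (x - h)) ^ 2) (ball 0 R) ∧
      ∫ x in ball 0 R, (u x - u (x - h)) ^ 2 ≤ 4 * 3 ^ (n + 1) * ‖h‖ / unitVol n *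
        ∫ q in ball (0 : Sp n) (R + 2 * ‖h‖) ×ˢ ball 0 (R + 2 * ‖h‖),
          dens u q ∂volume.prod volume := by
  have hr : 0 < ‖h‖ := norm_pos_iff.2 hh
  have hFi : IntegrableOn (fun x => (u x - u (x - h)) ^ 2) (ball 0 R) :=
    (hu.grow.sub hu.meas (hu.meas.comp (measurable_id.sub_const h)) (hu.grow.shift h)).sq_int R
  refine ⟨hFi, ?_⟩
  set F := (ball (0 : Sp n) R).indicator fun x => (u x - u (x - h)) ^ 2
  set G := (ball (0 : Sp n) ‖h‖).indicator fun _ : Sp n => (1 : ℝ)
  have hFint : Integrable F := hFi.integrable_indicator measurableSet_ball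
  have hGint : Integrable G :=
    (integrableOn_const measure_ball_lt_top.ne).integrable_indicator measurableSet_ball
  have hH : Integrable (fun q : Sp n × Sp n => F q.1 * G q.2) (volume.prod volume) :=
    hFint.mul_prod hGint
  have hT := measurePreserving_prod_neg_add (volume : Measure (Sp n)) (volume : Measure (Sp n))
  have hK : Integrable (fun q : Sp n × Sp n => F q.1 * G (-q.1 + q.2)) (volume.prod volume) :=
    (hT.integrable_comp hH.aestronglyMeasurable).2 hH
  have heq : ∫ q, F q.1 * G (-q.1 + q.2) ∂volume.prod volume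
      = (∫ x in ball 0 R, (u x - u (x - h)) ^ 2) * (‖h‖ ^ n * unitVol n) := by
    rw [← vol_ball (0 : Sp n) hr, ← integral_indicator measurableSet_ball,
      show volume.real (ball (0 : Sp n) ‖h‖) = ∫ x, G x by
        rw [integral_indicator measurableSet_ball, setIntegral_const, smul_eq_mul, mul_one],
      ← integral_prod_mul]
    conv_rhs => rw [← hT.map_eq]
    rw [integral_map hT.measurable.aemeasurable (by rw [hT.map_eq]; exact hH.aestronglyMeasurable)]
  set S := ball (0 : Sp n) (R + 2 * ‖h‖) ×ˢ ball (0 : Sp n) (R + 2 * ‖h‖)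
  have hSm : MeasurableSet S := measurableSet_ball.prod measurableSet_ball
  set P := S.indicator (dens u)
  have hPi : Integrable P (volume.prod volume) := (hu.gag _).integrable_indicator hSm
  have hP0 : ∀ q, 0 ≤ P q := fun q => Set.indicator_nonneg (fun q _ => dens_nonneg u q) q
  have hle : ∀ q : Sp n × Sp n, F q.1 * G (-q.1 + q.2) ≤
      2 * (3 * ‖h‖) ^ (n + 1) * (P q + P (q - (h, 0))) := by
    rintro ⟨x, z⟩
    simp only [Prod.mk_sub_mk, sub_zero]
    by_cases hx : x ∈ ball (0 : Sp n) R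
    · by_cases hz : -x + z ∈ ball (0 : Sp n) ‖h‖
      · simp only [F, G, Set.indicator_of_mem hx, Set.indicator_of_mem hz, mul_one]
        rw [mem_ball_zero_iff] at hx
        rw [mem_ball_zero_iff, neg_add_eq_sub, norm_sub_rev] at hz
        have hz' : ‖z‖ < R + 2 * ‖h‖ := by
          have := norm_sub_le x (x - z)
          rw [sub_sub_cancel] at this
          linarith
        have hxh : ‖x - h‖ < R + 2 * ‖h‖ := by linarith [norm_sub_le x h]
        have hxz : ‖x - h - z‖ ≤ 3 * ‖h‖ := by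
          rw [show x - h - z = x - z - h by abel]
          linarith [norm_sub_le (x - z) h]
        have hd : ∀ a b : Sp n, ‖a‖ < R + 2 * ‖h‖ → ‖b‖ < R + 2 * ‖h‖ → ‖a - b‖ ≤ 3 * ‖h‖ →
            (u a - u b) ^ 2 ≤ (3 * ‖h‖) ^ (n + 1) * P (a, b) := by
          intro a b ha hb hab
          simp only [P, Set.indicator_of_mem (show (a, b) ∈ S from
            ⟨mem_ball_zero_iff.2 ha, mem_ball_zero_iff.2 hb⟩), dens]
          rcases eq_or_ne a b with rfl | hne
          · simp
          have hab0 : 0 < ‖a - b‖ := norm_pos_iff.2 (sub_ne_zero.2 hne)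
          rw [ker, mul_comm, mul_assoc, inv_mul_eq_div]
          refine le_mul_of_one_le_right (sq_nonneg _) ((one_le_div (by positivity)).2 ?_)
          exact pow_le_pow_left₀ hab0.le hab _
        have e1 := hd x z (by linarith) hz' (by linarith)
        have e2 := hd (x - h) z hxh hz' hxz
        nlinarith [sq_nonneg (u x - u z + (u (x - h) - u z))]
      · simp only [G, Set.indicator_of_notMem hz, mul_zero]
        exact mul_nonneg (by positivity) (add_nonneg (hP0 _) (hP0 _))
    · simp only [F, Set.indicator_of_notMem hx, zero_mul]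
      exact mul_nonneg (by positivity) (add_nonneg (hP0 _) (hP0 _))
  have hb := integral_mono hK ((hPi.add (hPi.comp_sub_right (h, 0))).const_mul _) hle
  simp only [Pi.add_apply] at hb
  rw [integral_const_mul, integral_add hPi (hPi.comp_sub_right _), integral_sub_right_eq_self P,
    heq, integral_indicator hSm] at hb
  have hV : 0 < ‖h‖ ^ n * unitVol n := mul_pos (by positivity) unitVol_pos
  refine le_of_mul_le_mul_right (hb.trans_eq ?_) hV
  rw [mul_pow, pow_succ ‖h‖ n]
  have := unitVol_pos (n := n)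
  field_simp
  ring

end Vale.Agent.P120.Linear
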