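import Vale.Agent.P120.Linear.Base
import Mathlib.Analysis.SpecialFunctions.JapaneseBracket
import Mathlib.MeasureTheory.Group.Prod
import Mathlib.MeasureTheory.Integral.Prod

/-!
# P120, Linear: the ball free form

`form φ v` is an absolutely integrable integrand on the product; its integral is the pairing of the
half Laplacian of `v` with a test of mean zero.
-/

open MeasureTheory Metric Finset Filter
open scoped ENNReal Topology NNReal

namespace Vale.Agent.P120.Linear

variable {n : ℕ}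

/-- Squares grow at most like `R ^ a` over balls. -/
def Grow (a : ℕ) (v : Sp n → ℝ) : Prop :=
  ∃ C : ℝ, 0 ≤ C ∧ ∀ R : ℝ, 1 ≤ R → IntegrableOn (fun x => v x ^ 2) (ball 0 R) ∧
    ∫ x in ball 0 R, v x ^ 2 ≤ C * R ^ a

/-- The energy density. -/
noncomputable def dens (v : Sp n → ℝ) (q : Sp n × Sp n) : ℝ :=
  (v q.1 - v q.2) ^ 2 * ker (q.1 - q.2)

/-- The functions the form is defined for. -/
structure Mild (v : Sp n → ℝ) : Prop where
  meas : Measurable v
  grow : Grow (n + 3) v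
  gag : ∀ R : ℝ, IntegrableOn (dens v) (ball 0 R ×ˢ ball 0 R) (volume.prod volume)

/-- The integrand of the form. -/
noncomputable def form (φ v : Sp n → ℝ) (q : Sp n × Sp n) : ℝ :=
  2⁻¹ * ((φ q.1 - φ q.2) * (v q.1 - v q.2) * ker (q.1 - q.2) +
    (φ q.1 * v q.2 * jap q.2 + φ q.2 * v q.1 * jap q.1))

/-- The weak equation. -/
def Weak (v : Sp n → ℝ) : Prop :=
  ∀ φ : Sp n → ℝ, ContDiff ℝ (⊤ : ℕ∞) φ → ∀ R : ℝ, 1 ≤ R → (∀ y, R ≤ ‖y‖ → φ y = 0) →
    ∫ y, φ y = 0 → ∫ q, form φ v q ∂volume.prod volume = 0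

lemma form_swap (φ v : Sp n → ℝ) (q : Sp n × Sp n) : form φ v q.swap = form φ v q := by
  simp only [form, Prod.fst_swap, Prod.snd_swap]
  rw [ker_comm q.2 q.1]
  ring

lemma dens_nonneg (v : Sp n → ℝ) (q : Sp n × Sp n) : 0 ≤ dens v q :=
  mul_nonneg (sq_nonneg _) (ker_nonneg _)

lemma measurable_form {φ v : Sp n → ℝ} (hφ : Measurable φ) (hv : Measurable v) :
    Measurable (form φ v) := by
  have h := measurable_ker (n := n)
  have h' := measurable_jap (n := n)
  unfold form
  fun_prop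

/-- The integral of a modulus from the integral of the square. -/
lemma abs_bound {f : Sp n → ℝ} (hf : Measurable f) {s : Set (Sp n)} (hs : volume s ≠ ⊤)
    (hi : IntegrableOn (fun x => f x ^ 2) s) :
    IntegrableOn (fun x => |f x|) s ∧
      ∫ x in s, |f x| ≤ √(volume.real s * ∫ x in s, f x ^ 2) := by
  have h1 : IntegrableOn (fun x => |f x|) s := by
    refine (((integrableOn_const (C := (1 : ℝ)) hs)).add hi).mono'
      (continuous_abs.measurable.comp hf).aestronglyMeasurable (Eventually.of_forall fun x => ?_)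
    simp only [Pi.add_apply, Real.norm_eq_abs, abs_abs]
    nlinarith [sq_nonneg (|f x| - 1), sq_abs (f x)]
  refine ⟨h1, ?_⟩
  set m := ∫ x in s, |f x|
  set V := volume.real s
  have hm : 0 ≤ m := integral_nonneg fun _ => abs_nonneg _
  rcases (measureReal_nonneg : 0 ≤ V).eq_or_lt with hV | hV
  · have : volume.restrict s = 0 := Measure.restrict_eq_zero.2
      ((measureReal_eq_zero_iff hs).1 hV.symm)
    have hm0 : m = 0 := by simp [m, this]
    rw [hm0]; positivity
  refine (le_of_eq (Real.sqrt_sq hm).symm).trans (Real.sqrt_le_sqrt ?_)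
  have key : 0 ≤ ∫ x in s, (f x ^ 2 - 2 * (m / V) * |f x| + (m / V) ^ 2) :=
    integral_nonneg fun x => by
      have := sq_nonneg (|f x| - m / V)
      rw [sub_sq, sq_abs] at this
      show (0 : ℝ) ≤ _
      linarith
  have e1 : IntegrableOn (fun x => f x ^ 2 - 2 * (m / V) * |f x|) s := hi.sub (h1.const_mul _)
  rw [integral_add e1 (integrableOn_const hs),
    integral_sub hi (h1.const_mul _), integral_const_mul, setIntegral_const, smul_eq_mul] at key
  have e : V * ((∫ x in s, f x ^ 2) - 2 * (m / V) * m + V * (m / V) ^ 2)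
      = V * (∫ x in s, f x ^ 2) - m ^ 2 := by
    have hV' : V ≠ 0 := hV.ne'
    field_simp
    ring
  nlinarith [mul_nonneg hV.le key]

lemma grow_abs {a : ℕ} {v : Sp n → ℝ} (hv : Measurable v) {C : ℝ} (hC : 0 ≤ C)
    (h : ∀ R : ℝ, 1 ≤ R → IntegrableOn (fun x => v x ^ 2) (ball 0 R) ∧
      ∫ x in ball 0 R, v x ^ 2 ≤ C * R ^ a) (X : ℝ) (hX : 1 ≤ X) :
    IntegrableOn (fun x => |v x|) (ball 0 X) ∧
      ∫ x in ball 0 X, |v x| ≤ √(unitVol n * C) * √(X ^ (a + n)) := by
  obtain ⟨hi, hle⟩ := h X hX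
  obtain ⟨h1, h2⟩ := abs_bound hv measure_ball_lt_top.ne hi
  refine ⟨h1, h2.trans ?_⟩
  rw [← Real.sqrt_mul (mul_nonneg unitVol_pos.le hC), vol_ball _ (by linarith)]
  refine Real.sqrt_le_sqrt ?_
  calc X ^ n * unitVol n * ∫ x in ball 0 X, v x ^ 2 ≤ X ^ n * unitVol n * (C * X ^ a) :=
        mul_le_mul_of_nonneg_left hle (mul_nonneg (by positivity) unitVol_pos.le)
    _ = _ := by rw [pow_add]; ring

lemma Mild.local_abs {v : Sp n → ℝ} (hv : Mild v) (R : ℝ) :
    IntegrableOn (fun x => |v x|) (ball 0 R) := by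
  obtain ⟨C, hC, h⟩ := hv.grow
  exact (grow_abs hv.meas hC h _ (le_max_left 1 R)).1.mono_set
    (ball_subset_ball (le_max_right 1 R))

lemma Mild.locInt {v : Sp n → ℝ} (hv : Mild v) (R : ℝ) : IntegrableOn v (ball 0 R) :=
  (hv.local_abs R).mono' hv.meas.aestronglyMeasurable (Eventually.of_forall fun _ => le_rfl)

lemma integrable_jap : Integrable (jap : Sp n → ℝ) := by
  have h := integrable_one_add_norm (E := Sp n) (μ := volume) (r := ((n + 1 : ℕ) : ℝ))
    (by rw [finrank_euclideanSpace_fin]; push_cast; linarith)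
  refine h.congr (Eventually.of_forall fun z => ?_)
  simp only [jap]
  rw [Real.rpow_neg (by positivity), Real.rpow_natCast]

lemma jap2_le_inv {z : Sp n} (hz : z ∉ ball 0 1) : jap2 z ≤ (‖z‖ ^ (n + 2))⁻¹ := by
  have : 1 ≤ ‖z‖ := not_lt.1 fun h => hz (mem_ball_zero_iff.2 h)
  unfold jap2
  gcongr
  linarith

lemma Mild.integrable_jap2 {v : Sp n → ℝ} (hv : Mild v) :
    Integrable (fun z => |v z| * jap2 z) := by
  obtain ⟨C, hC, h⟩ := hv.grow
  obtain ⟨Ct, -, ht⟩ := tail_bound (n := n) (m := n + 3 + n) (by omega)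
  have htail := (ht (fun z => |v z|) _ 1 (continuous_abs.measurable.comp hv.meas) (fun z => abs_nonneg _) one_pos
    fun X hX => grow_abs hv.meas hC h X hX).1
  have hm : AEStronglyMeasurable (fun z => |v z| * jap2 z) volume :=
    ((continuous_abs.measurable.comp hv.meas).mul measurable_jap2).aestronglyMeasurable
  rw [← integrableOn_univ, ← Set.union_compl_self (ball (0 : Sp n) 1)]
  refine IntegrableOn.union ((hv.local_abs 1).mono' hm.restrict (Eventually.of_forall fun z => ?_))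
    (htail.mono' hm.restrict ?_)
  · rw [Real.norm_of_nonneg (mul_nonneg (abs_nonneg _) (jap2_nonneg z))]
    exact mul_le_of_le_one_right (abs_nonneg _) ((jap2_le_jap z).trans (jap_le_one z))
  · filter_upwards [ae_restrict_mem measurableSet_ball.compl] with z hz
    rw [Real.norm_of_nonneg (mul_nonneg (abs_nonneg _) (jap2_nonneg z)), div_eq_mul_inv]
    exact mul_le_mul_of_nonneg_left (jap2_le_inv hz) (abs_nonneg _)

/-- A weight and a shifted kernel over a ball. -/
lemma conv_bound {f g : Sp n → ℝ} {ρ : ℝ} (hf0 : ∀ x, 0 ≤ f x) (hg0 : ∀ x, 0 ≤ g x)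
    (hf : IntegrableOn f (ball 0 ρ)) (hg : IntegrableOn g (ball 0 (2 * ρ))) :
    IntegrableOn (fun q : Sp n × Sp n => f q.1 * g (q.2 - q.1)) (ball 0 ρ ×ˢ ball 0 ρ)
        (volume.prod volume) ∧
      ∫ q in ball (0 : Sp n) ρ ×ˢ ball 0 ρ, f q.1 * g (q.2 - q.1) ∂volume.prod volume ≤
        (∫ x in ball 0 ρ, f x) * ∫ x in ball 0 (2 * ρ), g x := by
  set F := (ball (0 : Sp n) ρ).indicator f
  set G := (ball (0 : Sp n) (2 * ρ)).indicator g
  have hH : Integrable (fun q : Sp n × Sp n => F q.1 * G q.2) (volume.prod volume) :=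
    (hf.integrable_indicator measurableSet_ball).mul_prod
      (hg.integrable_indicator measurableSet_ball)
  have hT := measurePreserving_prod_neg_add (volume : Measure (Sp n)) (volume : Measure (Sp n))
  have hK : Integrable (fun q : Sp n × Sp n => F q.1 * G (-q.1 + q.2)) (volume.prod volume) :=
    (hT.integrable_comp hH.aestronglyMeasurable).2 hH
  have heq : ∫ q, F q.1 * G (-q.1 + q.2) ∂volume.prod volume
      = (∫ x in ball 0 ρ, f x) * ∫ x in ball 0 (2 * ρ), g x := by
    rw [← integral_indicator measurableSet_ball, ← integral_indicator measurableSet_ball,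
      ← integral_prod_mul]
    conv_rhs => rw [← hT.map_eq]
    rw [integral_map hT.measurable.aemeasurable (by rw [hT.map_eq]; exact hH.aestronglyMeasurable)]
  have hagree : ∀ q ∈ ball (0 : Sp n) ρ ×ˢ ball (0 : Sp n) ρ,
      F q.1 * G (-q.1 + q.2) = f q.1 * g (q.2 - q.1) := by
    intro q hq
    have h2 : -q.1 + q.2 ∈ ball (0 : Sp n) (2 * ρ) := by
      rw [mem_ball_zero_iff, neg_add_eq_sub]
      linarith [mem_ball_zero_iff.1 hq.1, mem_ball_zero_iff.1 hq.2, norm_sub_le q.2 q.1]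
    simp only [F, G, Set.indicator_of_mem hq.1, Set.indicator_of_mem h2]
    rw [neg_add_eq_sub]
  have hm := (measurableSet_ball (x := (0 : Sp n)) (ε := ρ)).prod
    (measurableSet_ball (x := (0 : Sp n)) (ε := ρ))
  refine ⟨(hK.integrableOn).congr_fun hagree hm, ?_⟩
  rw [← setIntegral_congr_fun hm hagree, ← heq]
  exact setIntegral_le_integral hK (Eventually.of_forall fun q =>
    mul_nonneg (Set.indicator_nonneg (fun x _ => hf0 x) _)
      (Set.indicator_nonneg (fun x _ => hg0 x) _))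

/-- The bound of a form off the diagonal block. -/
noncomputable def side (R : ℝ) (v : Sp n → ℝ) (q : Sp n × Sp n) : ℝ :=
  (ball (0 : Sp n) (2 * R)).indicator (fun y => |v y|) q.1 * jap q.2 +
    (ball (0 : Sp n) (2 * R)).indicator (fun _ => (1 : ℝ)) q.1 * (|v q.2| * jap2 q.2)

/-- The constant of the majorant. -/
noncomputable def cst (n : ℕ) (R : ℝ) : ℝ :=
  1 + 2 * R + 4 ^ (n + 1) + 2 * (n + 1 : ℕ) * 16 ^ (n + 1) * R * 2 ^ (n + 2)

/-- The majorant of a form, independent of the test. -/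
noncomputable def maj (A L R : ℝ) (v : Sp n → ℝ) (q : Sp n × Sp n) : ℝ :=
  (ball (0 : Sp n) (2 * R) ×ˢ ball (0 : Sp n) (2 * R)).indicator
      (fun q => dens v q + L ^ 2 * (‖q.2 - q.1‖ ^ 2 * ker (q.2 - q.1))) q +
    A * cst n R * (side R v q + side R v q.swap)

lemma side_nonneg (R : ℝ) (v : Sp n → ℝ) (q : Sp n × Sp n) : 0 ≤ side R v q :=
  add_nonneg (mul_nonneg (Set.indicator_nonneg (fun _ _ => abs_nonneg _) _) (jap_nonneg _))
    (mul_nonneg (Set.indicator_nonneg (fun _ _ => zero_le_one) _)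
      (mul_nonneg (abs_nonneg _) (jap2_nonneg _)))

lemma cst_ge {R : ℝ} (hR : 1 ≤ R) : 1 + 2 * R ≤ cst n R ∧ 4 ^ (n + 1) ≤ cst n R ∧
    2 * (n + 1 : ℕ) * 16 ^ (n + 1) * R * 2 ^ (n + 2) ≤ cst n R := by
  have : 0 ≤ 2 * ((n + 1 : ℕ) : ℝ) * 16 ^ (n + 1) * R * 2 ^ (n + 2) := by positivity
  have : (0 : ℝ) ≤ 4 ^ (n + 1) := by positivity
  simp only [cst]
  refine ⟨?_, ?_, ?_⟩ <;> linarith

lemma integrable_side {v : Sp n → ℝ} (hv : Mild v) (R : ℝ) :
    Integrable (side R v) (volume.prod volume) :=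
  (((hv.local_abs _).integrable_indicator measurableSet_ball).mul_prod integrable_jap).add
    (((integrableOn_const measure_ball_lt_top.ne).integrable_indicator measurableSet_ball).mul_prod
      hv.integrable_jap2)

lemma integrable_maj (hn : 1 ≤ n) {v : Sp n → ℝ} (hv : Mild v) (A L R : ℝ) :
    Integrable (maj A L R v) (volume.prod volume) := by
  obtain ⟨Cn, -, hnear⟩ := near_bound hn
  have h2 : IntegrableOn (fun q : Sp n × Sp n => ‖q.2 - q.1‖ ^ 2 * ker (q.2 - q.1))
      (ball (0 : Sp n) (2 * R) ×ˢ ball (0 : Sp n) (2 * R)) (volume.prod volume) := by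
    rcases lt_or_ge 0 R with hR | hR
    · have := (conv_bound (f := fun _ => 1) (g := fun z : Sp n => ‖z‖ ^ 2 * ker z) (ρ := 2 * R)
        (fun _ => zero_le_one) (fun z => mul_nonneg (sq_nonneg _) (ker_nonneg z))
        (integrableOn_const measure_ball_lt_top.ne) (hnear _ (by positivity)).1).1
      simpa using this
    · rw [ball_eq_empty.2 (by linarith), Set.empty_prod]
      exact integrableOn_empty
  refine (((hv.gag _).add (h2.const_mul _)).integrable_indicator
    (measurableSet_ball.prod measurableSet_ball)).add ?_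
  exact ((integrable_side hv R).add ((integrable_side hv R).swap)).const_mul _

lemma off_bound {φ v : Sp n → ℝ} {A R : ℝ} (hR : 1 ≤ R) (hA : ∀ x, |φ x| ≤ A)
    (hsupp : ∀ y, R ≤ ‖y‖ → φ y = 0) {y z : Sp n} (hy : ‖y‖ < R) (hz : 2 * R ≤ ‖z‖) :
    |form φ v (y, z)| ≤ A * cst n R * side R v (y, z) := by
  obtain ⟨-, hC4, hCc⟩ := cst_ge (n := n) hR
  have hz0 : φ z = 0 := hsupp z (by linarith)
  have hA0 : 0 ≤ A := (abs_nonneg _).trans (hA y)
  have hz1 : 1 ≤ ‖z‖ := by linarith
  have hy2 : y ∈ ball (0 : Sp n) (2 * R) := mem_ball_zero_iff.2 (by linarith)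
  have e : form φ v (y, z)
      = 2⁻¹ * (φ y * (v y * ker (y - z) + v z * (jap z - ker (y - z)))) := by
    simp only [form, hz0]; ring
  have hinv : ∀ k : ℕ, (‖z‖ ^ k)⁻¹ ≤ 2 ^ k * ((1 + ‖z‖) ^ k)⁻¹ := fun k => by
    rw [← div_eq_mul_inv, ← inv_div]
    refine inv_anti₀ (by positivity) ?_
    rw [← div_pow]
    gcongr
    linarith
  have h1 : ker (y - z) ≤ cst n R * jap z := by
    refine (ker_far hy.le hz (by linarith)).trans ?_
    rw [div_eq_mul_inv]
    calc (2 : ℝ) ^ (n + 1) * (‖z‖ ^ (n + 1))⁻¹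
        ≤ 2 ^ (n + 1) * (2 ^ (n + 1) * jap z) := mul_le_mul_of_nonneg_left (hinv _) (by positivity)
      _ = 4 ^ (n + 1) * jap z := by rw [← mul_assoc, ← mul_pow]; norm_num
      _ ≤ _ := mul_le_mul_of_nonneg_right hC4 (jap_nonneg z)
  have h2 : |jap z - ker (y - z)| ≤ cst n R * jap2 z := by
    refine (jap_sub_ker hy.le hz hR).trans ?_
    rw [div_eq_mul_inv]
    calc 2 * ((n + 1 : ℕ) : ℝ) * 16 ^ (n + 1) * R * (‖z‖ ^ (n + 2))⁻¹
        ≤ 2 * ((n + 1 : ℕ) : ℝ) * 16 ^ (n + 1) * R * (2 ^ (n + 2) * jap2 z) :=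
          mul_le_mul_of_nonneg_left (hinv _) (by positivity)
      _ = 2 * ((n + 1 : ℕ) : ℝ) * 16 ^ (n + 1) * R * 2 ^ (n + 2) * jap2 z := by ring
      _ ≤ _ := mul_le_mul_of_nonneg_right hCc (jap2_nonneg z)
  rw [e, side, Set.indicator_of_mem hy2, Set.indicator_of_mem hy2, one_mul, abs_mul, abs_mul,
    abs_of_pos (by norm_num : (0 : ℝ) < 2⁻¹)]
  have h3 : |v y * ker (y - z) + v z * (jap z - ker (y - z))| ≤
      cst n R * (|v y| * jap z + |v z| * jap2 z) := by
    refine (abs_add_le _ _).trans ?_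
    rw [abs_mul, abs_mul, abs_of_nonneg (ker_nonneg _)]
    linarith [mul_le_mul_of_nonneg_left h1 (abs_nonneg (v y)),
      mul_le_mul_of_nonneg_left h2 (abs_nonneg (v z))]
  have h4 := mul_le_mul (hA y) h3 (abs_nonneg _) hA0
  have h5 : 0 ≤ |φ y| * |v y * ker (y - z) + v z * (jap z - ker (y - z))| := by positivity
  simp only
  linarith

lemma form_le_maj {φ v : Sp n → ℝ} {A : ℝ} {L : ℝ≥0} {R : ℝ} (hR : 1 ≤ R)
    (hA : ∀ x, |φ x| ≤ A) (hL : LipschitzWith L φ) (hsupp : ∀ y, R ≤ ‖y‖ → φ y = 0)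
    (q : Sp n × Sp n) : |form φ v q| ≤ maj A L R v q := by
  obtain ⟨y, z⟩ := q
  have hA0 : 0 ≤ A := (abs_nonneg _).trans (hA y)
  have hC : 0 ≤ cst n R := le_trans (by linarith) (cst_ge (n := n) hR).1
  have hblock : 0 ≤ (ball (0 : Sp n) (2 * R) ×ˢ ball (0 : Sp n) (2 * R)).indicator
      (fun q => dens v q + (L : ℝ) ^ 2 * (‖q.2 - q.1‖ ^ 2 * ker (q.2 - q.1))) (y, z) :=
    Set.indicator_nonneg (fun q _ => add_nonneg (dens_nonneg v q)
      (mul_nonneg (sq_nonneg _) (mul_nonneg (sq_nonneg _) (ker_nonneg _)))) _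
  have hs1 := mul_nonneg (mul_nonneg hA0 hC) (side_nonneg R v (y, z))
  have hs2 := mul_nonneg (mul_nonneg hA0 hC) (side_nonneg R v (y, z).swap)
  unfold maj
  by_cases hz : ‖z‖ < 2 * R
  · by_cases hy : ‖y‖ < 2 * R
    · have hy' : y ∈ ball (0 : Sp n) (2 * R) := mem_ball_zero_iff.2 hy
      have hz' : z ∈ ball (0 : Sp n) (2 * R) := mem_ball_zero_iff.2 hz
      rw [Set.indicator_of_mem (Set.mk_mem_prod hy' hz')]
      simp only [form, dens, Prod.swap_prod_mk, side, Set.indicator_of_mem hy',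
        Set.indicator_of_mem hz', one_mul]
      have h1 : |(φ y - φ z) * (v y - v z)| ≤
          (v y - v z) ^ 2 + (L : ℝ) ^ 2 * ‖z - y‖ ^ 2 := by
        have := hL.norm_sub_le y z
        rw [Real.norm_eq_abs, norm_sub_rev y z] at this
        rw [abs_mul, ← mul_pow, ← sq_abs (v y - v z)]
        nlinarith [abs_nonneg (φ y - φ z), abs_nonneg (v y - v z),
          sq_nonneg (|φ y - φ z| - |v y - v z|), pow_le_pow_left₀ (abs_nonneg _) this 2]
      have h1' := mul_le_mul_of_nonneg_right h1 (ker_nonneg (y - z))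
      have hc1 := (cst_ge (n := n) hR).1
      have h2 : ∀ a b : Sp n, ‖b‖ < 2 * R →
          |φ a * v b * jap b| ≤ A * cst n R * (|v b| * jap2 b) := by
        intro a b hb
        rw [abs_mul, abs_mul, abs_of_nonneg (jap_nonneg b), mul_assoc, mul_assoc A (cst n R)]
        refine mul_le_mul (hA a) ?_ (mul_nonneg (abs_nonneg _) (jap_nonneg b)) hA0
        rw [mul_left_comm]
        exact mul_le_mul_of_nonneg_left ((jap_le_jap2 hb.le).trans
          (mul_le_mul_of_nonneg_right hc1 (jap2_nonneg b))) (abs_nonneg _)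
      have h3 := h2 y z hz
      have h4 := h2 z y hy
      have h5 : 0 ≤ A * cst n R * (|v y| * jap z) :=
        mul_nonneg (mul_nonneg hA0 hC) (mul_nonneg (abs_nonneg _) (jap_nonneg _))
      have h6 : 0 ≤ A * cst n R * (|v z| * jap y) :=
        mul_nonneg (mul_nonneg hA0 hC) (mul_nonneg (abs_nonneg _) (jap_nonneg _))
      rw [ker_comm z y, abs_mul, abs_of_pos (by norm_num : (0 : ℝ) < 2⁻¹)]
      have h7 := abs_add_three ((φ y - φ z) * (v y - v z) * ker (y - z))
        (φ y * v z * jap z) (φ z * v y * jap y)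
      rw [abs_mul ((φ y - φ z) * (v y - v z)), abs_of_nonneg (ker_nonneg _), add_assoc] at h7
      linarith [abs_nonneg ((φ y - φ z) * (v y - v z) * ker (y - z) +
        (φ y * v z * jap z + φ z * v y * jap y))]
    · have h0 : φ y = 0 := hsupp y (by linarith)
      by_cases hz2 : ‖z‖ < R
      · have := off_bound (v := v) hR hA hsupp hz2 (not_lt.1 hy)
        rw [← form_swap] at this
        simp only [Prod.swap_prod_mk] at this ⊢ hs1 hs2
        linarith
      · have h1 : φ z = 0 := hsupp z (not_lt.1 hz2)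
        have : form φ v (y, z) = 0 := by simp [form, h0, h1]
        rw [this, abs_zero]
        linarith
  · have h0 : φ z = 0 := hsupp z (by linarith)
    by_cases hy2 : ‖y‖ < R
    · have := off_bound (v := v) hR hA hsupp hy2 (not_lt.1 hz)
      linarith
    · have h1 : φ y = 0 := hsupp y (not_lt.1 hy2)
      have : form φ v (y, z) = 0 := by simp [form, h0, h1]
      rw [this, abs_zero]
      linarith

/-- Bounds of a smooth compactly supported test. -/
lemma test_bounds {φ : Sp n → ℝ} (hφ : ContDiff ℝ (⊤ : ℕ∞) φ) {R : ℝ}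
    (hsupp : ∀ y, R ≤ ‖y‖ → φ y = 0) :
    ∃ (A : ℝ) (L : ℝ≥0), (∀ x, |φ x| ≤ A) ∧ LipschitzWith L φ ∧ HasCompactSupport φ := by
  have hc : HasCompactSupport φ :=
    HasCompactSupport.intro (isCompact_closedBall (0 : Sp n) R) fun x hx =>
      hsupp x (not_le.1 (mt mem_closedBall_zero_iff.2 hx)).le
  obtain ⟨A, hA⟩ := hφ.continuous.bounded_above_of_compact_support hc
  obtain ⟨L, hL⟩ := ContDiff.lipschitzWith_of_hasCompactSupport hc hφ (by simp)
  exact ⟨A, L, fun x => Real.norm_eq_abs _ ▸ hA x, hL, hc⟩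

lemma integrable_form (hn : 1 ≤ n) {φ v : Sp n → ℝ} (hv : Mild v) {R : ℝ} (hR : 1 ≤ R)
    (hφ : ContDiff ℝ (⊤ : ℕ∞) φ) (hsupp : ∀ y, R ≤ ‖y‖ → φ y = 0) :
    Integrable (form φ v) (volume.prod volume) := by
  obtain ⟨A, L, hA, hL, -⟩ := test_bounds hφ hsupp
  exact (integrable_maj hn hv A L R).mono'
    (measurable_form hφ.continuous.measurable hv.meas).aestronglyMeasurable
    (Eventually.of_forall fun q => form_le_maj hR hA hL hsupp q)

end Vale.Agent.P120.Linear
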