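import Vale.Agent.P120.Linear.Cacc
import Mathlib.Algebra.Module.Pi
import Mathlib.Analysis.InnerProductSpace.Dual

/-!
# P120, Linear: iterated differences

A smooth solution of growth below two has vanishing second differences.
-/

open MeasureTheory Metric Finset Filter
open scoped ENNReal Topology NNReal

namespace Vale.Agent.P120.Linear

variable {n : ℕ}

/-- The difference along a vector. -/
def dif (h : Sp n) (u : Sp n → ℝ) : Sp n → ℝ := fun x => u x - u (x - h)

/-- The iterated difference along a list. -/
def it : List (Sp n) → (Sp n → ℝ) → Sp n → ℝ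
  | [], u => u
  | h :: hs, u => it hs (dif h u)

/-- All differences of order `k` vanish. -/
def Van (k : ℕ) (u : Sp n → ℝ) : Prop := ∀ hs : List (Sp n), hs.length = k → it hs u = 0

lemma it_zero : ∀ hs : List (Sp n), it hs (0 : Sp n → ℝ) = 0
  | [] => rfl
  | h :: hs => by
      rw [it, show dif h (0 : Sp n → ℝ) = 0 by funext x; simp [dif]]
      exact it_zero hs

lemma it_add : ∀ (hs : List (Sp n)) (u w : Sp n → ℝ), it hs (u + w) = it hs u + it hs w
  | [], _, _ => rfl
  | h :: hs, u, w => by
      rw [it, it, it, ← it_add hs]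
      congr 1
      funext x
      simp [dif]
      ring

lemma it_smul : ∀ (hs : List (Sp n)) (c : ℝ) (u : Sp n → ℝ), it hs (c • u) = c • it hs u
  | [], _, _ => rfl
  | h :: hs, c, u => by
      rw [it, it, ← it_smul hs]
      congr 1
      funext x
      simp [dif]
      ring

lemma Van.dif {k : ℕ} {u : Sp n → ℝ} (hu : Van (k + 1) u) (h : Sp n) : Van k (dif h u) :=
  fun hs hlen => hu (h :: hs) (by simp [hlen])

lemma Van.succ {k : ℕ} {u : Sp n → ℝ} (hu : Van k u) : Van (k + 1) u := by
  induction k generalizing u with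
  | zero =>
      intro hs hlen
      have h0 : u = 0 := hu [] rfl
      rw [h0]
      exact it_zero hs
  | succ k ih =>
      intro hs hlen
      match hs with
      | [] => simp at hlen
      | h :: hs => exact ih (hu.dif h) hs (by simpa using hlen)

lemma it_append : ∀ (hs gs : List (Sp n)) (u : Sp n → ℝ), it (hs ++ gs) u = it gs (it hs u)
  | [], _, _ => rfl
  | h :: hs, gs, u => by rw [List.cons_append, it, it, it_append hs gs]

/-- A difference along a sum. -/
lemma dif_add (a b : Sp n) (u : Sp n → ℝ) :
    dif (a + b) u = dif a u + (dif b u + (-1 : ℝ) • dif a (dif b u)) := by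
  funext x
  simp only [dif, Pi.add_apply, Pi.smul_apply, smul_eq_mul, sub_add_eq_sub_sub]
  ring

/-- The top differences are homogeneous. -/
lemma scale : ∀ (hs : List (Sp n)) (u : Sp n → ℝ), Van (hs.length + 1) u → ∀ N : ℕ,
    it (hs.map (N • ·)) u = ((N : ℝ) ^ hs.length) • it hs u
  | [], u, _, N => by simp [it]
  | h :: hs, u, hu, N => by
      have hW : Van (hs.length + 1) (dif h u) := hu.dif h
      have key : ∀ M : ℕ, ∀ gs : List (Sp n), gs.length = hs.length →
          it gs (dif (M • h) u) = (M : ℝ) • it gs (dif h u) := by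
        intro M gs hlen
        induction M with
        | zero =>
            simp only [zero_smul, Nat.cast_zero]
            rw [show dif (0 : Sp n) u = 0 by funext x; simp [dif]]
            exact it_zero gs
        | succ M ihM =>
            have hk : it gs (dif (M • h) (dif h u)) = 0 :=
              hu (h :: (M • h) :: gs) (by simp [hlen])
            rw [succ_nsmul, dif_add, it_add, it_add, it_smul, hk, ihM, smul_zero, add_zero,
              Nat.cast_succ, add_smul, one_smul]
      rw [List.map_cons, it, key N _ (List.length_map _), scale hs _ hW N, it, smul_smul,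
        List.length_cons, pow_succ']

lemma it_continuous : ∀ (hs : List (Sp n)) (u : Sp n → ℝ), Continuous u → Continuous (it hs u)
  | [], _, hu => hu
  | h :: hs, u, hu =>
      it_continuous hs _ (hu.sub (hu.comp (continuous_id.sub continuous_const)))

lemma integrableOn_sq {u : Sp n → ℝ} (hu : Continuous u) (X : ℝ) :
    IntegrableOn (fun x => u x ^ 2) (ball 0 X) :=
  ((hu.pow 2).continuousOn.integrableOn_compact (isCompact_closedBall 0 X)).mono_set
    ball_subset_closedBall

lemma it_bound : ∀ (hs : List (Sp n)) (u : Sp n → ℝ), Continuous u → ∀ X : ℝ,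
    ∫ x in ball 0 X, it hs u x ^ 2 ≤
      4 ^ hs.length * ∫ x in ball 0 (X + (hs.map (‖·‖)).sum), u x ^ 2
  | [], u, _, X => by simp [it]
  | h :: hs, u, hu, X => by
      set Y := X + (hs.map (‖·‖)).sum
      have hd : Continuous (dif h u) := hu.sub (hu.comp (continuous_id.sub continuous_const))
      refine (it_bound hs _ hd X).trans ?_
      rw [List.length_cons, pow_succ (4 : ℝ), mul_assoc, List.map_cons, List.sum_cons,
        show X + (‖h‖ + (hs.map (‖·‖)).sum) = Y + ‖h‖ by simp only [Y]; ring]
      refine mul_le_mul_of_nonneg_left ?_ (by positivity)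
      have hle : ∀ x, dif h u x ^ 2 ≤ 2 * u x ^ 2 + 2 * u (x - h) ^ 2 := fun x => by
        simp only [dif]; nlinarith [sq_nonneg (u x + u (x - h))]
      have hi2 : IntegrableOn (fun x => u (x - h) ^ 2) (ball 0 Y) :=
        integrableOn_sq (hu.comp (continuous_id.sub continuous_const)) Y
      obtain ⟨-, h2⟩ := shift_set (f := fun x => u x ^ 2) (s := h) (fun _ => sq_nonneg _)
        (measurableSet_ball (x := (0 : Sp n)) (ε := Y)) measurableSet_ball
        (fun x hx => mem_ball_shift hx) (integrableOn_sq hu (Y + ‖h‖))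
      have h3 : ∫ x in ball 0 Y, u x ^ 2 ≤ ∫ x in ball 0 (Y + ‖h‖), u x ^ 2 :=
        setIntegral_mono_set (integrableOn_sq hu _) (Eventually.of_forall fun x => sq_nonneg _)
          (ball_subset_ball (le_add_of_nonneg_right (norm_nonneg h))).eventuallyLE
      calc ∫ x in ball 0 Y, dif h u x ^ 2
          ≤ ∫ x in ball 0 Y, (2 * u x ^ 2 + 2 * u (x - h) ^ 2) :=
            integral_mono (integrableOn_sq hd Y)
              (((integrableOn_sq hu Y).const_mul 2).add (hi2.const_mul 2)) hle
        _ = 2 * (∫ x in ball 0 Y, u x ^ 2) + 2 * ∫ x in ball 0 Y, u (x - h) ^ 2 := by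
            rw [integral_add ((integrableOn_sq hu Y).const_mul 2) (hi2.const_mul 2),
              integral_const_mul, integral_const_mul]
        _ ≤ _ := by linarith

lemma sum_norm_nsmul (N : ℕ) : ∀ hs : List (Sp n),
    ((hs.map (N • ·)).map (‖·‖)).sum = N * (hs.map (‖·‖)).sum
  | [] => by simp
  | h :: hs => by
      simp only [List.map_cons, List.sum_cons, sum_norm_nsmul N hs]
      rw [← Nat.cast_smul_eq_nsmul ℝ, norm_smul, Real.norm_natCast]
      ring

/-- Growth below two lowers the order of vanishing to two. -/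
lemma van_down {u : Sp n → ℝ} (hu : Continuous u) (hg : Grow (n + 3) u) {k : ℕ} (hk : 2 ≤ k)
    (h : Van (k + 1) u) : Van k u := by
  intro hs hlen
  obtain ⟨C, hC, hgr⟩ := hg
  have hconst : ∀ x, it hs u x = it hs u 0 := fun x => by
    have e := h (hs ++ [x]) (by simp [hlen])
    rw [it_append] at e
    have e2 := congrFun e x
    simp only [it, dif, sub_self, Pi.zero_apply] at e2
    linarith
  set F := it hs u 0
  set σ := (hs.map (‖·‖)).sum
  have hσ : 0 ≤ σ := List.sum_nonneg (by simp)
  have key : ∀ N : ℕ, 1 ≤ N →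
      (N : ℝ) * (F ^ 2 * unitVol n) ≤ 4 ^ k * (C * (1 + σ) ^ (n + 3)) := by
    intro N hN
    have hN1 : (1 : ℝ) ≤ N := by exact_mod_cast hN
    have hb := it_bound (hs.map (N • ·)) u hu (N : ℝ)
    rw [scale hs u (by rwa [hlen]) N, sum_norm_nsmul N hs, List.length_map, hlen] at hb
    have e : ∫ x in ball (0 : Sp n) (N : ℝ), (((N : ℝ) ^ k) • it hs u) x ^ 2 =
        (N : ℝ) ^ n * unitVol n * (((N : ℝ) ^ k) ^ 2 * F ^ 2) := by
      rw [show (fun x => (((N : ℝ) ^ k) • it hs u) x ^ 2) = fun _ => ((N : ℝ) ^ k) ^ 2 * F ^ 2 by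
        funext x; simp only [Pi.smul_apply, smul_eq_mul, hconst x]; ring,
        setIntegral_const, vol_ball _ (by linarith), smul_eq_mul]
    rw [e] at hb
    have h1 := (hgr ((N : ℝ) + N * σ) (by nlinarith)).2
    have h2 := hb.trans (mul_le_mul_of_nonneg_left h1 (by positivity))
    obtain ⟨j, rfl⟩ : ∃ j, k = j + 2 := ⟨k - 2, by omega⟩
    have h3 : (N : ℝ) ^ (n + 3) * ((N : ℝ) * (F ^ 2 * unitVol n)) ≤
        (N : ℝ) ^ n * unitVol n * (((N : ℝ) ^ (j + 2)) ^ 2 * F ^ 2) := by
      have : (1 : ℝ) ≤ ((N : ℝ) ^ j) ^ 2 := one_le_pow₀ (one_le_pow₀ hN1)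
      calc (N : ℝ) ^ (n + 3) * ((N : ℝ) * (F ^ 2 * unitVol n))
          = (N : ℝ) ^ n * unitVol n * ((N : ℝ) ^ 4 * F ^ 2) * 1 := by ring
        _ ≤ (N : ℝ) ^ n * unitVol n * ((N : ℝ) ^ 4 * F ^ 2) * ((N : ℝ) ^ j) ^ 2 :=
            mul_le_mul_of_nonneg_left this
              (mul_nonneg (mul_nonneg (by positivity) unitVol_pos.le) (by positivity))
        _ = _ := by ring
    refine le_of_mul_le_mul_left ((h3.trans h2).trans_eq ?_) (pow_pos (by linarith) (n + 3))
    rw [show (N : ℝ) + N * σ = N * (1 + σ) by ring, mul_pow]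
    ring
  have hF : F = 0 := by
    by_contra hne
    have hpos : 0 < F ^ 2 * unitVol n := mul_pos (by positivity) unitVol_pos
    obtain ⟨N, hN⟩ := exists_nat_gt (4 ^ k * (C * (1 + σ) ^ (n + 3)) / (F ^ 2 * unitVol n))
    have := key (N + 1) (by omega)
    rw [div_lt_iff₀ hpos] at hN
    push_cast at this
    linarith
  funext x
  rw [hconst x, hF]
  rfl

/-- Smooth solutions of growth `R ^ a` have no differences of order `a + 1`. -/
lemma van_of_weak (hn : 1 ≤ n) : ∀ a : ℕ, a ≤ n + 3 → ∀ u : Sp n → ℝ,
    ContDiff ℝ (⊤ : ℕ∞) u → Grow a u → Weak u → Van (a + 1) u := by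
  intro a
  induction a with
  | zero =>
      intro ha u hu hg hw hs hlen
      match hs with
      | [] => simp at hlen
      | h :: hs =>
        rw [List.length_cons] at hlen
        obtain rfl : hs = [] := List.length_eq_zero_iff.1 (by omega)
        funext x
        show u x - u (x - h) = 0
        rcases eq_or_ne h 0 with rfl | hh
        · simp
        obtain ⟨C, hC, hc⟩ := cacc hn ha hu hg hw
        have hm := Mild.of_smooth hn hu (hg.mono (Nat.zero_le _))
        set B : ℝ := 4 * 3 ^ (n + 1) * ‖h‖ / unitVol n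
        have hB : 0 ≤ B := div_nonneg (by positivity) unitVol_pos.le
        set R₀ := ‖x‖ + 1
        obtain ⟨hi, -⟩ := diff_energy hm hh R₀
        have hz : ∫ y in ball 0 R₀, (u y - u (y - h)) ^ 2 = 0 := by
          refine le_antisymm (le_of_forall_pos_lt_add fun ε hε => ?_)
            (integral_nonneg fun y => sq_nonneg _)
          set R := max R₀ (B * C / ε + 1)
          have hR : R₀ ≤ R := le_max_left _ _
          have hR1 : 1 ≤ R := le_trans (by simp [R₀]) hR
          obtain ⟨hiR, hleR⟩ := diff_energy hm hh R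
          have hρ : R ≤ R + 2 * ‖h‖ := by linarith [norm_nonneg h]
          calc ∫ y in ball 0 R₀, (u y - u (y - h)) ^ 2
              ≤ ∫ y in ball 0 R, (u y - u (y - h)) ^ 2 := setIntegral_mono_set hiR
                (Eventually.of_forall fun y => sq_nonneg _) (ball_subset_ball hR).eventuallyLE
            _ ≤ B * (C * (R + 2 * ‖h‖) ^ 0 / (R + 2 * ‖h‖)) := hleR.trans
                (mul_le_mul_of_nonneg_left (hc _ (hR1.trans hρ)) hB)
            _ ≤ B * C / R := by
                rw [pow_zero, mul_one, ← mul_div_assoc]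
                exact div_le_div_of_nonneg_left (mul_nonneg hB hC) (by linarith) hρ
            _ < 0 + ε := by
                rw [zero_add, div_lt_iff₀ (by linarith)]
                have : B * C / ε < R := lt_of_lt_of_le (by linarith) (le_max_right _ _)
                rw [div_lt_iff₀ hε] at this
                linarith
        have hcont : Continuous fun y => u y - u (y - h) :=
          hu.continuous.sub (hu.continuous.comp (continuous_id.sub continuous_const))
        have hae := (integral_eq_zero_iff_of_nonneg (fun y => sq_nonneg _) hi).1 hz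
        have hae' : (fun y => u y - u (y - h)) =ᵐ[volume.restrict (ball 0 R₀)] fun _ => 0 :=
          hae.mono fun y hy => by simpa using hy
        exact Measure.eqOn_open_of_ae_eq hae' isOpen_ball hcont.continuousOn continuousOn_const
          (mem_ball_zero_iff.2 (lt_add_one ‖x‖))
  | succ a ih =>
      intro ha u hu hg hw hs hlen
      match hs with
      | [] => simp at hlen
      | h :: hs =>
        rcases eq_or_ne h 0 with rfl | hh
        · rw [it, show dif (0 : Sp n) u = 0 by funext x; simp [dif]]
          exact it_zero hs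
        have hm := Mild.of_smooth hn hu (hg.mono ha)
        have hd : ContDiff ℝ (⊤ : ℕ∞) (dif h u) :=
          hu.sub (hu.comp (contDiff_id.sub contDiff_const))
        obtain ⟨C, hC, hc⟩ := cacc hn ha hu hg hw
        have hV := unitVol_pos (n := n)
        refine ih (by omega) _ hd ⟨4 * 3 ^ (n + 1) * ‖h‖ / unitVol n * (C * (1 + 2 * ‖h‖) ^ a),
          by positivity, fun R hR => ?_⟩ (hw.sub hn hm (hm.shift h) (hw.shift hn hm h)) hs
          (by simpa using hlen)
        obtain ⟨hi, hle⟩ := diff_energy hm hh R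
        refine ⟨hi, hle.trans ?_⟩
        have hρ : (1 : ℝ) ≤ R + 2 * ‖h‖ := by linarith [norm_nonneg h]
        rw [mul_assoc (4 * 3 ^ (n + 1) * ‖h‖ / unitVol n)]
        refine mul_le_mul_of_nonneg_left ((hc _ hρ).trans ?_) (div_nonneg (by positivity) hV.le)
        rw [pow_succ, ← mul_assoc, mul_div_assoc, div_self (by linarith), mul_one, mul_assoc C,
          ← mul_pow]
        gcongr
        nlinarith [norm_nonneg h]

/-- Smooth solutions of growth below two are affine. -/
lemma smooth_affine (hn : 1 ≤ n) {u : Sp n → ℝ} (hu : ContDiff ℝ (⊤ : ℕ∞) u)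
    (hg : Grow (n + 3) u) (hw : Weak u) : ∃ b : Sp n, ∀ x, u x = u 0 + inner ℝ b x := by
  have h2 : Van 2 u :=
    Nat.decreasingInduction' (P := fun k => Van k u)
      (fun k _ hk hv => van_down hu.continuous hg hk hv) (by omega : 2 ≤ n + 3 + 1)
      (van_of_weak hn _ le_rfl u hu hg hw)
  have hadd : ∀ a b : Sp n, u (a + b) - u 0 = (u a - u 0) + (u b - u 0) := fun a b => by
    have h := congrFun (h2 [a, b] rfl) (a + b)
    simp only [it, dif, add_sub_cancel_left, add_sub_cancel_right, sub_self, Pi.zero_apply] at h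
    linarith
  let f : Sp n →+ ℝ :=
    { toFun := fun x => u x - u 0
      map_zero' := sub_self _
      map_add' := hadd }
  let T : Sp n →L[ℝ] ℝ := f.toRealLinearMap (hu.continuous.sub continuous_const)
  refine ⟨(InnerProductSpace.toDual ℝ (Sp n)).symm T, fun x => ?_⟩
  rw [InnerProductSpace.toDual_symm_apply]
  show u x = u 0 + (u x - u 0)
  ring

end Vale.Agent.P120.Linear
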