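import Vale.Agent.P120.Linear.Shift
import Mathlib.Analysis.Calculus.BumpFunction.Convolution
import Mathlib.Analysis.Calculus.ContDiff.Convolution
import Mathlib.Analysis.Calculus.ContDiff.RCLike

/-!
# P120, Linear: mollification
-/

open MeasureTheory Metric Finset Filter ContinuousLinearMap
open scoped ENNReal Topology NNReal Convolution

namespace Vale.Agent.P120.Linear

variable {n : ℕ}

lemma locallyIntegrable_of_balls {f : Sp n → ℝ} (h : ∀ R, IntegrableOn f (ball 0 R)) :
    LocallyIntegrable f := by
  refine locallyIntegrable_iff.2 fun K hK => ?_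
  obtain ⟨R, hR⟩ := hK.isBounded.subset_ball 0
  exact (h R).mono_set hR

lemma Mild.locallyIntegrable {v : Sp n → ℝ} (hv : Mild v) : LocallyIntegrable v :=
  locallyIntegrable_of_balls hv.locInt

lemma Grow.sq_int {a : ℕ} {v : Sp n → ℝ} (hv : Grow a v) (R : ℝ) :
    IntegrableOn (fun x => v x ^ 2) (ball 0 R) := by
  obtain ⟨C, -, h⟩ := hv
  exact (h _ (le_max_left 1 R)).1.mono_set (ball_subset_ball (le_max_right 1 R))

/-- Smooth functions of moderate growth are mild. -/
lemma Mild.of_smooth (hn : 1 ≤ n) {v : Sp n → ℝ} (hv : ContDiff ℝ (⊤ : ℕ∞) v)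
    (hg : Grow (n + 3) v) : Mild v := by
  refine ⟨hv.continuous.measurable, hg, fun R => ?_⟩
  rcases le_or_gt R 0 with hR | hR
  · rw [ball_eq_empty.2 hR, Set.empty_prod]; exact integrableOn_empty
  obtain ⟨K, hK⟩ := hv.contDiffOn.exists_lipschitzOnWith (by simp)
    (convex_closedBall (0 : Sp n) R) (isCompact_closedBall _ _)
  obtain ⟨Cn, -, hnear⟩ := near_bound hn
  have h2 := (conv_bound (f := fun _ => (K : ℝ) ^ 2) (g := fun z : Sp n => ‖z‖ ^ 2 * ker z)
    (ρ := R) (fun _ => sq_nonneg _) (fun z => mul_nonneg (sq_nonneg _) (ker_nonneg z))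
    (integrableOn_const measure_ball_lt_top.ne) (hnear _ (by positivity)).1).1
  have hm : Measurable (dens v) := by
    have := measurable_ker (n := n)
    have := hv.continuous.measurable
    unfold dens
    fun_prop
  refine h2.mono' hm.aestronglyMeasurable ?_
  filter_upwards [ae_restrict_mem (measurableSet_ball.prod measurableSet_ball)] with q hq
  rw [Real.norm_of_nonneg (dens_nonneg _ q), dens, ker_comm q.2 q.1, ← mul_assoc, ← mul_pow]
  refine mul_le_mul_of_nonneg_right ?_ (ker_nonneg _)
  have := hK.norm_sub_le (ball_subset_closedBall hq.1) (ball_subset_closedBall hq.2)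
  rw [Real.norm_eq_abs, norm_sub_rev q.1 q.2] at this
  rw [← sq_abs (v q.1 - v q.2)]
  exact pow_le_pow_left₀ (abs_nonneg _) this 2

/-- The mollification by a bump. -/
noncomputable def mol (b : ContDiffBump (0 : Sp n)) (v : Sp n → ℝ) : Sp n → ℝ :=
  b.normed volume ⋆[lsmul ℝ ℝ, volume] v

lemma mol_apply (b : ContDiffBump (0 : Sp n)) (v : Sp n → ℝ) (x : Sp n) :
    mol b v x = ∫ t, b.normed volume t * v (x - t) := rfl

lemma mol_integrand (b : ContDiffBump (0 : Sp n)) {v : Sp n → ℝ} (hv : LocallyIntegrable v)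
    (x : Sp n) : Integrable fun t => b.normed volume t * v (x - t) :=
  (b.hasCompactSupport_normed.convolutionExists_left (lsmul ℝ ℝ : ℝ →L[ℝ] ℝ →L[ℝ] ℝ)
    b.continuous_normed hv x)

lemma mol_smooth (b : ContDiffBump (0 : Sp n)) {v : Sp n → ℝ} (hv : Mild v) :
    ContDiff ℝ (⊤ : ℕ∞) (mol b v) :=
  b.hasCompactSupport_normed.contDiff_convolution_left _ b.contDiff_normed hv.locallyIntegrable

lemma normed_eq_zero {b : ContDiffBump (0 : Sp n)} (hb : b.rOut ≤ 1) {t : Sp n} (ht : 1 ≤ ‖t‖) :
    b.normed volume t = 0 := by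
  have : t ∉ Function.support (b.normed volume) := by
    rw [b.support_normed_eq, mem_ball_zero_iff]
    linarith
  simpa using this

lemma mol_grow {b : ContDiffBump (0 : Sp n)} (hb : b.rOut ≤ 1) {v : Sp n → ℝ} (hv : Mild v) :
    Grow (n + 3) (mol b v) := by
  obtain ⟨C, hC, h⟩ := hv.grow
  have hl2 : LocallyIntegrable fun x => v x ^ 2 := locallyIntegrable_of_balls hv.grow.sq_int
  refine ⟨C * 2 ^ (n + 3), by positivity, fun R hR => ?_⟩
  obtain ⟨hi, hle⟩ := h (R + 1) (by linarith)
  set g := (ball (0 : Sp n) (R + 1)).indicator fun x => v x ^ 2 with hgdef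
  have hg : Integrable g := hi.integrable_indicator measurableSet_ball
  have hρ : Integrable (b.normed volume) :=
    b.continuous_normed.integrable_of_hasCompactSupport b.hasCompactSupport_normed
  have hconv : Integrable (b.normed volume ⋆[lsmul ℝ ℝ, volume] g) :=
    hρ.integrable_convolution _ hg
  have hpos : ∀ x, 0 ≤ (b.normed volume ⋆[lsmul ℝ ℝ, volume] g) x := fun x =>
    integral_nonneg fun t => mul_nonneg (b.nonneg_normed t)
      (Set.indicator_nonneg (fun y _ => sq_nonneg _) _)
  have hpt : ∀ x ∈ ball (0 : Sp n) R,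
      mol b v x ^ 2 ≤ (b.normed volume ⋆[lsmul ℝ ℝ, volume] g) x := by
    intro x hx
    have e : ∀ t, b.normed volume t * g (x - t) = b.normed volume t * v (x - t) ^ 2 := by
      intro t
      rcases lt_or_ge ‖t‖ 1 with ht | ht
      · have : x - t ∈ ball (0 : Sp n) (R + 1) := by
          rw [mem_ball_zero_iff] at hx ⊢
          linarith [norm_sub_le x t]
        rw [hgdef, Set.indicator_of_mem this]
      · simp [normed_eq_zero hb ht]
    show mol b v x ^ 2 ≤ ∫ t, b.normed volume t * g (x - t)
    simp only [e]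
    set m := mol b v x with hm
    have i1 := mol_integrand b hv.locallyIntegrable x
    have i2 := mol_integrand b hl2 x
    have key : 0 ≤ ∫ t, (b.normed volume t * v (x - t) ^ 2 -
        2 * m * (b.normed volume t * v (x - t)) + m ^ 2 * b.normed volume t) :=
      integral_nonneg fun t => by
        have := mul_nonneg (b.nonneg_normed (μ := volume) t) (sq_nonneg (v (x - t) - m))
        show (0 : ℝ) ≤ _
        linarith
    have i3 : Integrable fun t => b.normed volume t * v (x - t) ^ 2 -
        2 * m * (b.normed volume t * v (x - t)) := i2.sub (i1.const_mul _)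
    rw [integral_add i3 (hρ.const_mul _), integral_sub i2 (i1.const_mul _), integral_const_mul,
      integral_const_mul, b.integral_normed, ← mol_apply, ← hm] at key
    linarith
  have hi' : IntegrableOn (fun x => mol b v x ^ 2) (ball 0 R) :=
    hconv.integrableOn.mono' ((mol_smooth b hv).continuous.pow 2).aestronglyMeasurable
      ((ae_restrict_mem measurableSet_ball).mono fun x hx => by
        rw [Real.norm_of_nonneg (sq_nonneg _)]; exact hpt x hx)
  refine ⟨hi', ?_⟩
  calc ∫ x in ball 0 R, mol b v x ^ 2
      ≤ ∫ x in ball 0 R, (b.normed volume ⋆[lsmul ℝ ℝ, volume] g) x :=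
        setIntegral_mono_on hi' hconv.integrableOn measurableSet_ball hpt
    _ ≤ ∫ x, (b.normed volume ⋆[lsmul ℝ ℝ, volume] g) x :=
        setIntegral_le_integral hconv (Eventually.of_forall hpos)
    _ = ∫ x in ball 0 (R + 1), v x ^ 2 := by
        rw [integral_convolution _ hρ hg, b.integral_normed, hgdef,
          integral_indicator measurableSet_ball]
        simp
    _ ≤ C * (R + 1) ^ (n + 3) := hle
    _ ≤ C * 2 ^ (n + 3) * R ^ (n + 3) := by
        rw [mul_assoc, ← mul_pow]; gcongr; linarith

lemma mol_mild (hn : 1 ≤ n) {b : ContDiffBump (0 : Sp n)} (hb : b.rOut ≤ 1) {v : Sp n → ℝ}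
    (hv : Mild v) : Mild (mol b v) :=
  Mild.of_smooth hn (mol_smooth b hv) (mol_grow hb hv)

lemma mol_weak (hn : 1 ≤ n) {b : ContDiffBump (0 : Sp n)} (hb : b.rOut ≤ 1) {v : Sp n → ℝ}
    (hv : Mild v) (hw : Weak v) : Weak (mol b v) := by
  intro φ hφ R hR hsupp hmean
  set ρ := b.normed volume with hρdef
  obtain ⟨B, hB⟩ := form_uniform hn hv hφ hR hsupp
  have hρ : Integrable ρ :=
    b.continuous_normed.integrable_of_hasCompactSupport b.hasCompactSupport_normed
  set H : Sp n × (Sp n × Sp n) → ℝ := fun p => ρ p.1 * form φ (fun x => v (x - p.1)) p.2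
    with hH
  have hHm : Measurable H := by
    have := hv.meas
    have := hφ.continuous.measurable
    have := measurable_ker (n := n)
    have := measurable_jap (n := n)
    have : Measurable ρ := b.continuous_normed.measurable
    simp only [hH, form]
    fun_prop
  have hHi : Integrable H (volume.prod (volume.prod volume)) := by
    rw [integrable_prod_iff hHm.aestronglyMeasurable]
    refine ⟨Eventually.of_forall fun t =>
      (integrable_form hn (hv.shift t) hR hφ hsupp).const_mul (ρ t), ?_⟩
    refine (hρ.mul_const B).mono' hHm.aestronglyMeasurable.norm.integral_prod_right'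
      (Eventually.of_forall fun t => ?_)
    rw [Real.norm_of_nonneg (integral_nonneg fun _ => norm_nonneg _)]
    simp only [hH, Real.norm_eq_abs, abs_mul, integral_const_mul]
    rcases lt_or_ge ‖t‖ 1 with ht | ht
    · rw [abs_of_nonneg (b.nonneg_normed t)]
      exact mul_le_mul_of_nonneg_left (hB t ht.le) (b.nonneg_normed t)
    · simp [hρdef, normed_eq_zero hb ht]
  have hlin : ∀ q, form φ (mol b v) q = ∫ t, H (t, q) := by
    intro q
    have i1 := mol_integrand b hv.locallyIntegrable q.1
    have i2 := mol_integrand b hv.locallyIntegrable q.2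
    set α := 2⁻¹ * ((φ q.1 - φ q.2) * ker (q.1 - q.2) + φ q.2 * jap q.1)
    set β := 2⁻¹ * (-((φ q.1 - φ q.2) * ker (q.1 - q.2)) + φ q.1 * jap q.2)
    have e : ∀ t, H (t, q) = α * (ρ t * v (q.1 - t)) + β * (ρ t * v (q.2 - t)) := fun t => by
      simp only [hH, form, α, β]; ring
    simp only [e]
    rw [integral_add (i1.const_mul α) (i2.const_mul β), integral_const_mul, integral_const_mul,
      ← mol_apply, ← mol_apply]
    simp only [form, α, β]; ring
  calc ∫ q, form φ (mol b v) q ∂volume.prod volume
      = ∫ q, (∫ t, H (t, q)) ∂volume.prod volume := by simp only [hlin]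
    _ = ∫ t, (∫ q, H (t, q) ∂volume.prod volume) := (integral_integral_swap (f := fun t q =>
        H (t, q)) hHi).symm
    _ = 0 := by
        refine integral_eq_zero_of_ae (Eventually.of_forall fun t => ?_)
        simp only [hH, integral_const_mul, hw.shift hn hv t φ hφ R hR hsupp hmean, mul_zero]
        rfl

end Vale.Agent.P120.Linear
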