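import Vale.Agent.P120.Linear.Form
import Mathlib.Analysis.Calculus.BumpFunction.Normed
import Mathlib.MeasureTheory.Group.Integral

/-!
# P120, Linear: translations, differences and mollifications keep the equation
-/

open MeasureTheory Metric Finset Filter
open scoped ENNReal Topology NNReal

namespace Vale.Agent.P120.Linear

variable {n : ℕ}

/-- A nonnegative function integrable on a set, moved by a translation. -/
lemma shift_set {G : Type*} [AddCommGroup G] [MeasurableSpace G] [MeasurableAdd G]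
    {m : Measure G} [m.IsAddRightInvariant] {f : G → ℝ} (hf0 : ∀ x, 0 ≤ f x) {S T : Set G} {s : G}
    (hS : MeasurableSet S) (hT : MeasurableSet T) (hmap : ∀ x ∈ S, x - s ∈ T)
    (hi : IntegrableOn f T m) :
    IntegrableOn (fun x => f (x - s)) S m ∧
      ∫ x in S, f (x - s) ∂m ≤ ∫ x in T, f x ∂m := by
  have h1 : Integrable (fun x => T.indicator f (x - s)) m :=
    (hi.integrable_indicator hT).comp_sub_right s
  have he : ∀ x ∈ S, T.indicator f (x - s) = f (x - s) := fun x hx =>
    Set.indicator_of_mem (hmap x hx) f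
  refine ⟨h1.integrableOn.congr_fun he hS, ?_⟩
  rw [← setIntegral_congr_fun hS he, ← integral_indicator hT,
    ← integral_sub_right_eq_self (T.indicator f) s]
  exact setIntegral_le_integral h1
    (Eventually.of_forall fun x => Set.indicator_nonneg (fun y _ => hf0 y) _)

lemma mem_ball_shift {x s : Sp n} {R : ℝ} (hx : x ∈ ball (0 : Sp n) R) :
    x - s ∈ ball (0 : Sp n) (R + ‖s‖) := by
  rw [mem_ball_zero_iff] at *
  linarith [norm_sub_le x s]

lemma Grow.shift {a : ℕ} {v : Sp n → ℝ} (hv : Grow a v) (s : Sp n) :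
    Grow a fun x => v (x - s) := by
  obtain ⟨C, hC, h⟩ := hv
  refine ⟨C * (1 + ‖s‖) ^ a, by positivity, fun R hR => ?_⟩
  obtain ⟨hi, hle⟩ := h (R + ‖s‖) (by linarith [norm_nonneg s])
  obtain ⟨h1, h2⟩ := shift_set (f := fun x => v x ^ 2) (s := s) (fun _ => sq_nonneg _)
    (measurableSet_ball (x := (0 : Sp n)) (ε := R)) measurableSet_ball
    (fun x hx => mem_ball_shift hx) hi
  refine ⟨h1, h2.trans (hle.trans ?_)⟩
  rw [mul_assoc, ← mul_pow]
  gcongr
  nlinarith [norm_nonneg s]

lemma Mild.shift {v : Sp n → ℝ} (hv : Mild v) (s : Sp n) : Mild fun x => v (x - s) := by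
  refine ⟨hv.meas.comp (measurable_id.sub_const s), hv.grow.shift s, fun R => ?_⟩
  have h := (shift_set (G := Sp n × Sp n) (m := volume.prod volume) (f := dens v) (s := (s, s))
    (dens_nonneg v) ((measurableSet_ball (x := (0 : Sp n)) (ε := R)).prod measurableSet_ball)
    (measurableSet_ball.prod measurableSet_ball)
    (fun x hx => Set.mk_mem_prod (mem_ball_shift hx.1) (mem_ball_shift hx.2))
    (hv.gag (R + ‖s‖))).1
  refine h.congr_fun (fun q _ => ?_) (measurableSet_ball.prod measurableSet_ball)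
  simp [dens, Prod.fst_sub, Prod.snd_sub]

lemma Grow.sub {a : ℕ} {u w : Sp n → ℝ} (hu : Measurable u) (hw : Measurable w) (h1 : Grow a u)
    (h2 : Grow a w) : Grow a fun x => u x - w x := by
  obtain ⟨C, hC, h⟩ := h1
  obtain ⟨D, hD, k⟩ := h2
  refine ⟨2 * C + 2 * D, by positivity, fun R hR => ?_⟩
  obtain ⟨hi, hl⟩ := h R hR
  obtain ⟨ki, kl⟩ := k R hR
  have hle : ∀ x, (u x - w x) ^ 2 ≤ 2 * u x ^ 2 + 2 * w x ^ 2 := fun x => by
    nlinarith [sq_nonneg (u x + w x)]
  have hb : IntegrableOn (fun x => 2 * u x ^ 2 + 2 * w x ^ 2) (ball 0 R) :=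
    (hi.const_mul 2).add (ki.const_mul 2)
  have hi' : IntegrableOn (fun x => (u x - w x) ^ 2) (ball 0 R) :=
    hb.mono' ((hu.sub hw).pow_const 2).aestronglyMeasurable
      (Eventually.of_forall fun x => by
        rw [Real.norm_of_nonneg (sq_nonneg _)]; exact hle x)
  refine ⟨hi', ?_⟩
  calc ∫ x in ball 0 R, (u x - w x) ^ 2 ≤ ∫ x in ball 0 R, (2 * u x ^ 2 + 2 * w x ^ 2) :=
        integral_mono hi' hb hle
    _ = 2 * (∫ x in ball 0 R, u x ^ 2) + 2 * ∫ x in ball 0 R, w x ^ 2 := by
        rw [integral_add (hi.const_mul 2) (ki.const_mul 2), integral_const_mul, integral_const_mul]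
    _ ≤ _ := by linarith

lemma Mild.sub {u w : Sp n → ℝ} (hu : Mild u) (hw : Mild w) : Mild fun x => u x - w x := by
  refine ⟨hu.meas.sub hw.meas, hu.grow.sub hu.meas hw.meas hw.grow, fun R => ?_⟩
  have hb := ((hu.gag R).const_mul 2).add ((hw.gag R).const_mul 2)
  have hm : Measurable (dens fun x => u x - w x) := by
    have := measurable_ker (n := n)
    have := hu.meas
    have := hw.meas
    unfold dens
    fun_prop
  refine hb.mono' hm.aestronglyMeasurable (Eventually.of_forall fun q => ?_)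
  rw [Real.norm_of_nonneg (dens_nonneg _ q)]
  simp only [Pi.add_apply, dens]
  rw [← mul_assoc, ← mul_assoc, ← add_mul]
  refine mul_le_mul_of_nonneg_right ?_ (ker_nonneg _)
  nlinarith [sq_nonneg (u q.1 - u q.2 + (w q.1 - w q.2))]

lemma Weak.sub (hn : 1 ≤ n) {u w : Sp n → ℝ} (hu : Mild u) (hw : Mild w) (h1 : Weak u)
    (h2 : Weak w) : Weak fun x => u x - w x := by
  intro φ hφ R hR hsupp hmean
  have : form φ (fun x => u x - w x) = fun q => form φ u q - form φ w q := by
    funext q; simp only [form]; ring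
  rw [this, integral_sub (integrable_form hn hu hR hφ hsupp) (integrable_form hn hw hR hφ hsupp),
    h1 φ hφ R hR hsupp hmean, h2 φ hφ R hR hsupp hmean, sub_self]

lemma grow_const {a : ℕ} (ha : n ≤ a) (c : ℝ) : Grow a fun _ : Sp n => c := by
  refine ⟨c ^ 2 * unitVol n, mul_nonneg (sq_nonneg _) unitVol_pos.le, fun R hR =>
    ⟨integrableOn_const measure_ball_lt_top.ne, ?_⟩⟩
  rw [setIntegral_const, smul_eq_mul, vol_ball _ (by linarith)]
  calc R ^ n * unitVol n * c ^ 2 ≤ R ^ a * unitVol n * c ^ 2 :=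
        mul_le_mul_of_nonneg_right (mul_le_mul_of_nonneg_right (pow_le_pow_right₀ hR ha)
          unitVol_pos.le) (sq_nonneg _)
    _ = _ := by ring

lemma Grow.mono {a b : ℕ} {v : Sp n → ℝ} (hv : Grow a v) (hab : a ≤ b) : Grow b v := by
  obtain ⟨C, hC, h⟩ := hv
  exact ⟨C, hC, fun R hR => ⟨(h R hR).1, (h R hR).2.trans (by gcongr)⟩⟩

lemma mild_const (c : ℝ) : Mild fun _ : Sp n => c := by
  refine ⟨measurable_const, grow_const (by omega) c, fun R => ?_⟩
  rw [show dens (fun _ : Sp n => c) = fun _ => (0 : ℝ) by funext q; simp [dens]]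
  exact integrableOn_zero

lemma weak_const (c : ℝ) : Weak fun _ : Sp n => c := by
  intro φ hφ R hR hsupp hmean
  have hc : HasCompactSupport φ := (test_bounds hφ hsupp).choose_spec.choose_spec.2.2
  have hi : Integrable φ := hφ.continuous.integrable_of_hasCompactSupport hc
  have e : form φ (fun _ : Sp n => c) =
      fun q => 2⁻¹ * c * (φ q.1 * jap q.2 + φ q.2 * jap q.1) := by
    funext q; simp only [form]; ring
  have h1 : Integrable (fun q : Sp n × Sp n => φ q.1 * jap q.2) (volume.prod volume) :=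
    hi.mul_prod integrable_jap
  have h2 : Integrable (fun q : Sp n × Sp n => φ q.2 * jap q.1) (volume.prod volume) := h1.swap
  have hswap : ∫ q : Sp n × Sp n, φ q.2 * jap q.1 ∂volume.prod volume =
      ∫ q : Sp n × Sp n, φ q.1 * jap q.2 ∂volume.prod volume :=
    integral_prod_swap (fun q : Sp n × Sp n => φ q.1 * jap q.2)
  rw [e, integral_const_mul, integral_add h1 h2, hswap, integral_prod_mul, hmean]
  ring

/-- The uniform constant of a translation of the regularised kernel. -/
noncomputable def shiftCst (n : ℕ) (r : ℝ) : ℝ :=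
  (n + 1 : ℕ) * 16 ^ (n + 1) * r + 2 * (1 + 2 * r) ^ (n + 2)

lemma jap_shift' {s : Sp n} {r : ℝ} (hs : ‖s‖ ≤ r) (z : Sp n) :
    |jap (z + s) - jap z| ≤ shiftCst n r * jap2 z := by
  have hr : 0 ≤ r := (norm_nonneg s).trans hs
  have h0 := norm_nonneg z
  by_cases hz : 2 * r ≤ ‖z‖
  · have h1 := norm_add_le z s
    have h2 : ‖z‖ ≤ ‖z + s‖ + r := by
      have := norm_sub_le (z + s) s
      rw [add_sub_cancel_right] at this
      linarith
    rw [jap, jap]
    refine (inv_pow_sub_le (by positivity) (by positivity) (by linarith) (by linarith)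
      (n + 1)).trans ?_
    rw [jap2, ← div_eq_mul_inv]
    refine div_le_div_of_nonneg_right ?_ (by positivity)
    refine le_trans (mul_le_mul_of_nonneg_left (abs_le.2 ⟨?_, ?_⟩) (by positivity))
      (le_add_of_nonneg_right (by positivity)) <;> linarith
  · have h1 : |jap (z + s) - jap z| ≤ 2 := by
      rw [abs_le]
      constructor <;> linarith [jap_le_one z, jap_le_one (z + s), jap_nonneg z, jap_nonneg (z + s)]
    have h2 : 1 ≤ (1 + 2 * r) ^ (n + 2) * jap2 z := by
      rw [jap2, ← div_eq_mul_inv, one_le_div (by positivity)]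
      gcongr
      linarith
    calc |jap (z + s) - jap z| ≤ 2 * ((1 + 2 * r) ^ (n + 2) * jap2 z) := by linarith
      _ ≤ _ := by
          rw [← mul_assoc]
          exact mul_le_mul_of_nonneg_right (le_add_of_nonneg_left (by positivity)) (jap2_nonneg z)

/-- The correction of the regularised kernel under a translation, as a function of one point. -/
noncomputable def corr (v : Sp n → ℝ) (s : Sp n) (x : Sp n) : ℝ :=
  v (x - s) * (jap x - jap (x - s))

lemma corr_bound {v : Sp n → ℝ} (hv : Mild v) {s : Sp n} {r : ℝ} (hs : ‖s‖ ≤ r) :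
    Integrable (corr v s) ∧ ∫ x, |corr v s x| ≤ shiftCst n r * ∫ x, |v x| * jap2 x := by
  set g : Sp n → ℝ := fun x => shiftCst n r * (|v (x - s)| * jap2 (x - s))
  have hg : Integrable g := (hv.integrable_jap2.comp_sub_right s).const_mul _
  have hb : ∀ x, |corr v s x| ≤ g x := fun x => by
    have := jap_shift' hs (x - s)
    rw [sub_add_cancel] at this
    simp only [corr, g, abs_mul]
    rw [mul_left_comm]
    exact mul_le_mul_of_nonneg_left this (abs_nonneg _)
  have hm : Measurable (corr v s) := by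
    have := hv.meas
    have := measurable_jap (n := n)
    unfold corr
    fun_prop
  have hi : Integrable (corr v s) :=
    hg.mono' hm.aestronglyMeasurable (Eventually.of_forall fun x => hb x)
  refine ⟨hi, (integral_mono hi.abs hg hb).trans_eq ?_⟩
  simp only [g]
  rw [integral_const_mul, integral_sub_right_eq_self (fun x => |v x| * jap2 x) s]

lemma form_shift (φ v : Sp n → ℝ) (s : Sp n) (q : Sp n × Sp n) :
    form φ (fun x => v (x - s)) q = form (fun x => φ (x + s)) v (q - (s, s)) +
      2⁻¹ * (φ q.1 * corr v s q.2 + φ q.2 * corr v s q.1) := by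
  simp only [form, corr, Prod.fst_sub, Prod.snd_sub, sub_add_cancel, sub_sub_sub_cancel_right]
  ring

lemma shift_test {φ : Sp n → ℝ} (hφ : ContDiff ℝ (⊤ : ℕ∞) φ) {R r : ℝ}
    (hsupp : ∀ y, R ≤ ‖y‖ → φ y = 0) {s : Sp n} (hs : ‖s‖ ≤ r) :
    ContDiff ℝ (⊤ : ℕ∞) (fun x => φ (x + s)) ∧ ∀ y, R + r ≤ ‖y‖ → φ (y + s) = 0 := by
  refine ⟨hφ.comp (contDiff_id.add contDiff_const), fun y hy => hsupp _ ?_⟩
  have := norm_sub_le (y + s) s
  rw [add_sub_cancel_right] at this
  linarith

lemma Weak.shift (hn : 1 ≤ n) {v : Sp n → ℝ} (hv : Mild v) (hw : Weak v) (s : Sp n) :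
    Weak fun x => v (x - s) := by
  intro φ hφ R hR hsupp hmean
  have hR' : 1 ≤ R + ‖s‖ := by linarith [norm_nonneg s]
  obtain ⟨hφ', hsupp'⟩ := shift_test hφ hsupp (le_refl ‖s‖)
  have h0 : ∫ q, form (fun x => φ (x + s)) v q ∂volume.prod volume = 0 :=
    hw _ hφ' _ hR' hsupp' (by rw [integral_add_right_eq_self φ s]; exact hmean)
  have hi := (integrable_form hn hv hR' hφ' hsupp').comp_sub_right ((s, s) : Sp n × Sp n)
  have hc : HasCompactSupport φ := (test_bounds hφ hsupp).choose_spec.choose_spec.2.2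
  have hiφ : Integrable φ := hφ.continuous.integrable_of_hasCompactSupport hc
  have h1 : Integrable (fun q : Sp n × Sp n => φ q.1 * corr v s q.2) (volume.prod volume) :=
    hiφ.mul_prod (corr_bound hv (le_refl ‖s‖)).1
  have h2 : Integrable (fun q : Sp n × Sp n => φ q.2 * corr v s q.1) (volume.prod volume) :=
    h1.swap
  have h12 : Integrable (fun q : Sp n × Sp n =>
      2⁻¹ * (φ q.1 * corr v s q.2 + φ q.2 * corr v s q.1)) (volume.prod volume) :=
    (h1.add h2).const_mul (2⁻¹ : ℝ)
  have hswap : ∫ q : Sp n × Sp n, φ q.2 * corr v s q.1 ∂volume.prod volume =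
      ∫ q : Sp n × Sp n, φ q.1 * corr v s q.2 ∂volume.prod volume :=
    integral_prod_swap (fun q : Sp n × Sp n => φ q.1 * corr v s q.2)
  simp only [form_shift]
  rw [integral_add hi h12, integral_sub_right_eq_self (form (fun x => φ (x + s)) v) _, h0,
    integral_const_mul, integral_add h1 h2, hswap, integral_prod_mul, hmean]
  ring

/-- A bound of the forms of all small translations. -/
lemma form_uniform (hn : 1 ≤ n) {v : Sp n → ℝ} (hv : Mild v) {φ : Sp n → ℝ}
    (hφ : ContDiff ℝ (⊤ : ℕ∞) φ) {R : ℝ} (hR : 1 ≤ R) (hsupp : ∀ y, R ≤ ‖y‖ → φ y = 0) :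
    ∃ B : ℝ, ∀ t : Sp n, ‖t‖ ≤ 1 →
      ∫ q, |form φ (fun x => v (x - t)) q| ∂volume.prod volume ≤ B := by
  obtain ⟨A, L, hA, hL, hc⟩ := test_bounds hφ hsupp
  have hiφ : Integrable φ := hφ.continuous.integrable_of_hasCompactSupport hc
  refine ⟨(∫ q, maj A L (R + 1) v q ∂volume.prod volume) +
    (∫ y, |φ y|) * (shiftCst n 1 * ∫ x, |v x| * jap2 x), fun t ht => ?_⟩
  obtain ⟨hφ', hsupp'⟩ := shift_test hφ hsupp ht
  have hL' : LipschitzWith L fun x => φ (x + t) := by
    refine LipschitzWith.of_dist_le_mul fun x y => ?_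
    simpa using hL.dist_le_mul (x + t) (y + t)
  have hle : ∀ q, |form φ (fun x => v (x - t)) q| ≤ maj A L (R + 1) v (q - (t, t)) +
      2⁻¹ * (|φ q.1| * |corr v t q.2| + |φ q.2| * |corr v t q.1|) := fun q => by
    rw [form_shift]
    refine (abs_add_le _ _).trans (add_le_add
      (form_le_maj (by linarith) (fun x => hA _) hL' hsupp' _) ?_)
    rw [abs_mul, abs_of_pos (by norm_num : (0 : ℝ) < 2⁻¹), ← abs_mul, ← abs_mul]
    exact mul_le_mul_of_nonneg_left (abs_add_le _ _) (by norm_num)
  obtain ⟨hci, hcb⟩ := corr_bound hv ht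
  have h1 : Integrable (fun q : Sp n × Sp n => |φ q.1| * |corr v t q.2|) (volume.prod volume) :=
    hiφ.abs.mul_prod hci.abs
  have h2 : Integrable (fun q : Sp n × Sp n => |φ q.2| * |corr v t q.1|) (volume.prod volume) :=
    h1.swap
  have h12 : Integrable (fun q : Sp n × Sp n =>
      2⁻¹ * (|φ q.1| * |corr v t q.2| + |φ q.2| * |corr v t q.1|)) (volume.prod volume) :=
    (h1.add h2).const_mul (2⁻¹ : ℝ)
  have hM := (integrable_maj hn hv A L (R + 1)).comp_sub_right ((t, t) : Sp n × Sp n)
  have hswap : ∫ q : Sp n × Sp n, |φ q.2| * |corr v t q.1| ∂volume.prod volume =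
      ∫ q : Sp n × Sp n, |φ q.1| * |corr v t q.2| ∂volume.prod volume :=
    integral_prod_swap (fun q : Sp n × Sp n => |φ q.1| * |corr v t q.2|)
  refine (integral_mono (integrable_form hn (hv.shift t) hR hφ hsupp).abs (hM.add h12) hle).trans ?_
  simp only [Pi.add_apply]
  rw [integral_add hM h12, integral_sub_right_eq_self (maj A L (R + 1) v) _, integral_const_mul,
    integral_add h1 h2, hswap, integral_prod_mul (fun y => |φ y|) (fun y => |corr v t y|)]
  have : (∫ y, |φ y|) * ∫ y, |corr v t y| ≤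
      (∫ y, |φ y|) * (shiftCst n 1 * ∫ x, |v x| * jap2 x) :=
    mul_le_mul_of_nonneg_left hcb (integral_nonneg fun _ => abs_nonneg _)
  linarith

end Vale.Agent.P120.Linear
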